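import Vale.Agent.P011Z.ModD4.Sys
import Vale.Agent.P011Z.G2

/-!
The hypotheses of the main theorem for trialitarian groups.
-/

open Module Matrix

namespace Vale.Agent.P011Z.ModD4

open Vale.Agent.P011.H900 Vale.Agent.P011Z.Mod

variable {F : Type} [Field F] [NumberField F] {a b c d q : F} {r s i : F →+* F}
  (H : Hy r s a b c d q) {E : Prop} (hi : E → Hi r s i a b c d q)

section ext

variable {Ω : Type} [Field Ω] {a' b' c' : Ω} (τ : F →+* Ω)

include hi in
theorem sig_lieE (ha : τ a = a') (hb : τ b = b') (hc : τ c = c') (x y : Oc a' b') :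
    tm (bs a' b') (sig (nL c') x y) ∈ (sys H i E).lieE τ := by
  have key : ∀ L ∈ Submodule.span F (L2 a b c d q r s i E),
      (tm (bs a b) L).map τ ∈ (sys H i E).lieE τ := by
    intro L hL
    refine Submodule.span_induction (p := fun L _ => (tm (bs a b) L).map τ ∈ (sys H i E).lieE τ)
      (fun L hL => Submodule.subset_span ⟨_, mem_lie H hL, rfl⟩) ?_ ?_ ?_ hL
    · rw [map_zero, Matrix.map_zero _ (map_zero τ)]
      exact zero_mem _
    · intro M M' _ _ h1 h2
      rw [map_add, Matrix.map_add _ (map_add τ)]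
      exact add_mem h1 h2
    · intro t M _ h1
      rw [map_smul, Matrix.map_smul' _ _ _ (map_mul τ)]
      exact Submodule.smul_mem _ _ h1
  refine sig_mem (bs a' b') (W := ((sys H i E).lieE τ).comap (tm (bs a' b')).toLinearMap)
    (fun j k => ?_) x y
  have h1 := key _ (sig_span H hi (bs a b j) (bs a b k))
  rw [(tm_map τ (L' := sig (nL c') (bs a' b' j) (bs a' b' k))).2 fun x => ?_] at h1
  · exact h1
  · rw [sig_apply, sig_apply, sub_eq_add_neg, sub_eq_add_neg, ← neg_smul, ← neg_smul, mp_add,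
      mp_smul, mp_smul, map_neg, ← mp_nL ha hb hc, ← mp_nL ha hb hc, mp_bs, mp_bs]

include hi in
theorem prime_sys [CharZero Ω] : (sys H i E).Prime τ := by
  intro I J hI hJ iI iJ hc
  have hF : Frm (nL (τ c) : Oc (τ a) (τ b) →ₗ[Ω] Oc (τ a) (τ b) →ₗ[Ω] Ω) :=
    frm ((map_ne_zero τ).2 H.a0) ((map_ne_zero τ).2 H.b0) ((map_ne_zero τ).2 H.c0)
  have key : ∀ K : Submodule Ω (Matrix (Fin 8) (Fin 8) Ω),
      (∀ X ∈ {X | tm (bs (τ a) (τ b)) X ∈ K}, X = 0) → K = ⊥ := by
    intro K h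
    refine (Submodule.eq_bot_iff _).2 fun M hM => ?_
    obtain ⟨L, rfl⟩ := (tm (bs (τ a) (τ b))).surjective M
    rw [h L hM, map_zero]
  refine (hF.prime (I := {X | tm (bs (τ a) (τ b)) X ∈ I}) (J := {X | tm (bs (τ a) (τ b)) X ∈ J})
    (fun X hX => skew_of_lieE H τ rfl rfl rfl (hI hX))
    (fun X hX => skew_of_lieE H τ rfl rfl rfl (hJ hX)) (fun X hX x y => ?_) (fun X hX x y => ?_)
    fun X hX Y hY => (tm (bs (τ a) (τ b))).injective ?_).imp (key I) (key J)
  · change tm _ _ ∈ I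
    rw [map_sub, map_mul, map_mul, ← neg_sub]
    exact neg_mem (iI _ (sig_lieE H hi τ rfl rfl rfl x y) _ hX)
  · change tm _ _ ∈ J
    rw [map_sub, map_mul, map_mul]
    exact iJ _ (sig_lieE H hi τ rfl rfl rfl x y) _ hX
  · rw [map_mul, map_mul]
    exact hc _ hX _ hY

end ext

include hi in
theorem sig_ind {p : Matrix (Fin 8) (Fin 8) F → Prop} (h0 : ∀ X ∈ (sys H i E).lie, p X)
    (h1 : p 0) (h2 : ∀ X Y, p X → p Y → p (X + Y)) (h3 : ∀ (t : F) X, p X → p (t • X))
    (x y : Oc a b) : p (tm (bs a b) (sig (nL c) x y)) := by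
  refine Submodule.span_induction (p := fun X _ => p X) ?_ h1 (fun X Y _ _ => h2 X Y)
    (fun t X _ => h3 t X) (sig_lieE H hi (RingHom.id F) rfl rfl rfl x y)
  rintro _ ⟨X, hX, rfl⟩
  exact h0 X hX

include hi in
theorem stable_sys : (sys H i E).Stable := by
  intro W hW h
  have h1 : W.map (bs a b).equivFun.symm.toLinearMap = ⊤ := by
    refine (frm H.a0 H.b0 H.c0).irred (by rwa [Ne, Submodule.map_eq_bot_iff]) ?_
    rintro x y _ ⟨w, hw, rfl⟩
    refine ⟨_, sig_ind H hi (p := fun X => X *ᵥ w ∈ W) (fun X hX => h X hX w hw) ?_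
      (fun X Y h1 h2 => ?_) (fun t X h1 => ?_) x y, vc_mulVec _ _ _⟩
    · rw [zero_mulVec]
      exact zero_mem _
    · rw [add_mulVec]
      exact add_mem h1 h2
    · rw [smul_mulVec]
      exact W.smul_mem t h1
  obtain ⟨w, hw, e⟩ : kk 1 0 ∈ W.map (bs a b).equivFun.symm.toLinearMap := by
    rw [h1]
    exact Submodule.mem_top
  refine ⟨_, Or.inl rfl, two_pos, fun _ => w, fun _ => hw, ?_⟩
  rw [ev_ofML _ _ _ (fun k => mp (![RingHom.id F, RingHom.id F] k)) (fun _ x => mp_symm _ x)]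
  change nL c (vc (bs a b) w) (vc (bs a b) w) ≠ 0
  rw [show vc (bs a b) w = kk 1 0 from e, nL_one, (kkc 1 0).1]
  norm_num

include hi in
theorem comm_sys (g : Matrix (Fin 8) (Fin 8) F) (h : ∀ X ∈ (sys H i E).lie, g * X = X * g) :
    ∃ t : F, g = t • 1 := by
  obtain ⟨L, rfl⟩ := (tm (bs a b)).surjective g
  obtain ⟨t, ht⟩ := (frm H.a0 H.b0 H.c0).scalar (g := L) fun x y => (tm (bs a b)).injective (by
    rw [map_mul, map_mul]
    refine sig_ind H hi (p := fun X => tm (bs a b) L * X = X * tm (bs a b) L) h (by simp)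
      (fun X Y h1 h2 => ?_) (fun t X h1 => ?_) x y
    · rw [mul_add, add_mul, h1, h2]
    · rw [mul_smul_comm, smul_mul_assoc, h1])
  exact ⟨t, by rw [ht, map_smul, map_one]⟩

section rep

variable {Ω : Type} [Field Ω] [CharZero Ω]

open Classical in
/-- The action on the octonions. -/
noncomputable def act (a b c : Ω) : SpecialLinearGroup (Fin 3) Ω →* End Ω (Oc a b) :=
  if h : a ≠ 0 ∧ b ≠ 0 ∧ c ≠ 0 ∧ IsSquare a then (exists_g2Act h.1 h.2.1 h.2.2.1 h.2.2.2).choose
  else 1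

theorem act_spec {a b c : Ω} (ha : a ≠ 0) (hb : b ≠ 0) (hc : c ≠ 0) (hs : IsSquare a) :
    G2Act c (act a b c) := by
  rw [act, dif_pos ⟨ha, hb, hc, hs⟩]
  exact (exists_g2Act ha hb hc hs).choose_spec

/-- The action in coordinates. -/
noncomputable def actM (a b c : Ω) : SpecialLinearGroup (Fin 3) Ω →* Matrix (Fin 8) (Fin 8) Ω :=
  (tm (bs a b) : End Ω (Oc a b) →* Matrix (Fin 8) (Fin 8) Ω).comp (act a b c)

omit [NumberField F] in
theorem presE {n : ℕ} (σ : Fin n → F →+* F) (hσ : ∀ k, σ k a = a ∧ σ k b = b ∧ σ k c = c)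
    (Ψ : MultilinearMap F (fun _ : Fin n => Oc a b) F) (τ : F →+* Ω)
    (Ψ' : MultilinearMap Ω (fun _ : Fin n => Oc (τ a) (τ b)) Ω)
    (h1 : ∀ v, τ (Ψ v) = Ψ' fun k => mp τ (v k)) (g : SpecialLinearGroup (Fin 3) Ω)
    (h2 : ∀ v, (Ψ' fun k => act (τ a) (τ b) (τ c) g (v k)) = Ψ' v) (x : Fin n → Fin 8 → Ω) :
    (ofML (bs a b) σ Ψ).evE τ
        (fun k => actM (τ.comp (σ k) a) (τ.comp (σ k) b) (τ.comp (σ k) c) g *ᵥ x k)
      = (ofML (bs a b) σ Ψ).evE τ x := by
  have e : ∀ j : Fin n → Fin 8, τ (Ψ fun k => bs a b (j k)) = Ψ' fun k => bs (τ a) (τ b) (j k) :=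
    fun j => by simp only [h1, mp_bs]
  have e' : ∀ k, actM (τ.comp (σ k) a) (τ.comp (σ k) b) (τ.comp (σ k) c) g
      = tm (bs (τ a) (τ b)) (act (τ a) (τ b) (τ c) g) := fun k => by
    simp only [RingHom.comp_apply, (hσ k).1, (hσ k).2.1, (hσ k).2.2]
    rfl
  rw [evE_ofML _ _ _ τ _ Ψ' e, evE_ofML _ _ _ τ _ Ψ' e]
  simp only [e', vc_mulVec]
  exact h2 _

include hi in
theorem pres_sys (hs : ∀ τ : F →+* Ω, IsSquare (τ a)) :
    (sys H i E).Pres fun (τ : F →+* Ω) g => actM (τ a) (τ b) (τ c) g := by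
  intro t ht τ g
  have G := act_spec ((map_ne_zero τ).2 H.a0) ((map_ne_zero τ).2 H.b0) ((map_ne_zero τ).2 H.c0)
    (hs τ)
  have hn : ∀ x y, nL (τ c) (act (τ a) (τ b) (τ c) g x) (act (τ a) (τ b) (τ c) g y)
      = nL (τ c) x y := fun x y => by
    rw [nL_apply, nL_apply, ← G.oc, ← G.om, G.re]
  rcases ht with rfl | rfl | rfl | ⟨hE, rfl⟩
  · refine presE _ (fun k => by fin_cases k <;> exact ⟨rfl, rfl, rfl⟩) _ τ (ml2 (nL (τ c)))
      (fun v => ?_) g fun v => ?_
    · simp only [ml2_apply, mp_nL rfl rfl rfl]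
    · simp only [ml2_apply, hn]
  · refine presE _ (fun k => ?_) _ τ (ml3 (t3 (τ c))) (fun v => ?_) g fun v => ?_
    · fin_cases k
      · exact ⟨H.ra, H.rb, H.rc⟩
      · exact ⟨(congrArg r H.ra).trans H.ra, (congrArg r H.rb).trans H.rb,
          (congrArg r H.rc).trans H.rc⟩
      · exact ⟨rfl, rfl, rfl⟩
    · simp only [ml3_apply, t3_apply, ← mp_oc, ← mp_om rfl rfl rfl, mp_nL rfl rfl rfl]
    · simp only [ml3_apply, t3_apply, ← G.oc, ← G.om, hn]
  · refine presE _ (fun k => ?_) _ τ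
      (ml2 ((nL (τ c)).comp (twL (τ c) (τ d) (τ q) (τ 1) (τ (q * r q)) (τ 1)))) (fun v => ?_) g
      fun v => ?_
    · fin_cases k
      · exact ⟨H.sa, H.sb, H.sc⟩
      · exact ⟨rfl, rfl, rfl⟩
    · simp only [ml2_apply, LinearMap.comp_apply, twL_apply, ← mp_tw rfl rfl rfl,
        mp_nL rfl rfl rfl]
    · simp only [ml2_apply, LinearMap.comp_apply, twL_apply]
      rw [← hn (tw _ _ _ _ _ _ (v 0)), tw, tw, G.om, G.om, pm, pm, kk, kk, G.fix, G.fix]
  · refine presE _ (fun k => ?_) _ τ (ml2 ((nL (τ c)).comp ocL)) (fun v => ?_) g fun v => ?_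
    · fin_cases k
      · exact ⟨(hi hE).ia, (hi hE).ib, (hi hE).ic⟩
      · exact ⟨rfl, rfl, rfl⟩
    · simp only [ml2_apply, LinearMap.comp_apply, ocL_apply, ← mp_oc, mp_nL rfl rfl rfl]
    · simp only [ml2_apply, LinearMap.comp_apply, ocL_apply, ← G.oc, hn]

include hi in
theorem noncomm_sys (τ : F →+* Ω) (hs : IsSquare (τ a)) (w : Ω) (hw : w ≠ 0) (hw1 : w ≠ 1) :
    ∃ X ∈ (sys H i E).lieE τ, actM (τ a) (τ b) (τ c) (dg3 w hw) * X
      ≠ X * actM (τ a) (τ b) (τ c) (dg3 w hw) := by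
  by_contra h
  push Not at h
  have ha := (map_ne_zero τ).2 H.a0
  have hb := (map_ne_zero τ).2 H.b0
  have hc := (map_ne_zero τ).2 H.c0
  have G := act_spec ha hb hc hs
  obtain ⟨t, ht⟩ := (frm ha hb hc).scalar (g := act (τ a) (τ b) (τ c) (dg3 w hw)) fun x y =>
    (tm (bs (τ a) (τ b))).injective (by
      rw [map_mul, map_mul]
      exact h _ (sig_lieE H hi τ rfl rfl rfl x y))
  have h1 : t = 1 := by
    have := congrArg (fun z : Oc (τ a) (τ b) => z.1.re) (G.fix (dg3 w hw) 1 0)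
    rw [ht] at this
    simpa using this
  obtain ⟨P, Q, R, -, hP, h2⟩ := G.dg
  refine hP (LinearMap.ext fun x => ?_)
  have h3 := (h2 w hw x).1
  rw [ht, h1, one_smul, End.one_apply] at h3
  have h4 : (w - 1) • P x = 0 := by rw [sub_smul, one_smul, ← h3, sub_self]
  exact (smul_eq_zero.1 h4).resolve_left (sub_ne_zero.2 hw1)

end rep

include H hi in
theorem simp_gen
    (ha : Ani fun f : Oc a b → Oc a b => Tri c r f ∧ Twi c r s d q f ∧ (E → Swp i f))
    (h : NoIndex fun f : Oc a b → Oc a b => Tri c r f ∧ Twi c r s d q f ∧ (E → Swp i f)) :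
    Simp fun f : Oc a b → Oc a b => Tri c r f ∧ Twi c r s d q f ∧ (E → Swp i f) := by
  have hF : Frm (nL c : Oc a b →ₗ[F] Oc a b →ₗ[F] F) := frm H.a0 H.b0 H.c0
  obtain ⟨p, -, h5, hs, hq⟩ := exists_split_sq a ∅
  refine simp_of_sys (bs a b) (sys H i E) (fun f => ?_) (fun L hL hm => ?_) ha h (stable_sys H hi)
    (comm_sys H hi) p h5 hs (fun τ => prime_sys H hi τ) (fun τ => actM (τ a) (τ b) (τ c))
    (pres_sys H hi hq) (fun τ => ?_) fun τ w hw hw1 => noncomm_sys H hi τ (hq τ) w hw ?_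
  · obtain ⟨⟨h1, h2⟩, h3, h4⟩ := mem_grp
      (P := fun f : Oc a b → Oc a b => Tri c r f ∧ Twi c r s d q f ∧ (E → Swp i f))
      ⟨⟨fun _ _ _ => rfl, fun _ _ => rfl⟩, fun _ => rfl, fun _ _ => rfl⟩
      (fun f g hf hg => ⟨⟨fun t x y => (congrArg f (hg.1.1 t x y)).trans (hf.1.1 t _ _),
        fun x y => (congrArg f (hg.1.2 x y)).trans (hf.1.2 _ _)⟩,
        fun x => (congrArg f (hg.2.1 x)).trans (hf.2.1 _),
        fun hE x => (congrArg f (hg.2.2 hE x)).trans (hf.2.2 hE _)⟩)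
      (fun f hf => ⟨⟨fun t x y => f.injective (by simp only [hf.1.1, Equiv.apply_symm_apply]),
        fun x y => f.injective (by rw [hf.1.2]; simp only [Equiv.apply_symm_apply])⟩,
        fun x => f.injective (by rw [hf.2.1]; simp only [Equiv.apply_symm_apply]),
        fun hE x => f.injective (by rw [hf.2.2 hE]; simp only [Equiv.apply_symm_apply])⟩) f
    have h0 : f.1 0 = 0 := by
      have := h1 1 0 0
      rw [one_smul, one_smul, add_zero] at this
      exact left_eq_add.1 this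
    let L : End F (Oc a b) :=
      { toFun := f.1
        map_add' := fun x y => by
          have := h1 1 x y
          rwa [one_smul, one_smul] at this
        map_smul' := fun t x => by
          have := h1 t x 0
          rwa [add_zero, h0, add_zero] at this }
    have e2 : ∀ x y, L (st c r x y) = st c r (L x) (L y) := h2
    have e3 : ∀ x, L (Jm c r s d q x) = Jm c r s d q (L x) := h3
    have e4 : E → ∀ x, L (io i x) = io i (L x) := h4
    have e0 : L (kk 1 0) ≠ 0 := fun e => by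
      have := congrArg (fun z : Oc a b => z.1.re) (f.1.injective (e.trans h0.symm))
      simp [kk] at this
    have e1 : ∀ x, nL c (L x) (L x) = nL c x x := fun x => by
      have := e2 x (st c r (kk 1 0) x)
      rw [H.st_st, e2, H.st_st, map_smul] at this
      rw [nL_apply, nL_apply, r.injective (smul_left_injective F e0 this)]
    have e5 : ∀ x y, nL c (L x) (L y) = nL c x y := fun x y => by
      have := e1 (x + y)
      simp only [map_add, LinearMap.add_apply, e1, nL_symm c (L y) (L x), nL_symm c y x] at this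
      linear_combination this / 2
    exact ⟨L, rfl, (mem_mon H).2 ⟨e5, fun x y z => by rw [← e2, e5], fun x y => by rw [← e3, e5],
      fun hE x y => by rw [← e4 hE, e5]⟩⟩
  · obtain ⟨h1, h2, h3, h4⟩ := (mem_mon H).1 hm
    have key : ∀ u v, (∀ z, nL c v (L z) = nL c u z) → L u = v := fun u v huv =>
      sub_eq_zero.1 (hF.nd _ fun z => by
        obtain ⟨z, rfl⟩ := hL.2 z
        rw [map_sub, LinearMap.sub_apply, h1, huv, sub_self])
    exact ⟨⟨fun t x y => by rw [map_add, map_smul], fun x y => key _ _ (h2 x y)⟩,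
      fun x => key _ _ (h3 x), fun hE x => key _ _ (h4 hE x)⟩
  · have G := act_spec ((map_ne_zero τ).2 H.a0) ((map_ne_zero τ).2 H.b0) ((map_ne_zero τ).2 H.c0)
      (hq τ)
    obtain ⟨P, Q, R, h1, -, h2⟩ := G.dg
    exact rep3_of _ _ G.el ⟨P, Q, R, h1, h2⟩
  · rintro rfl
    simp at hw1

end Vale.Agent.P011Z.ModD4
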