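import Vale.Agent.P011Z.ModD4.Tw
import Vale.Agent.P011Z.Split

/-!
The Lie algebras of the trialitarian groups span the orthogonal Lie algebra.
-/

open Module

namespace Vale.Agent.P011Z.ModD4

open Vale.Agent.P011.H900

section gen

variable {F V : Type} [Field F] [AddCommGroup V] [Module F V] {n : V →ₗ[F] V →ₗ[F] F}
  {X Y : End F V}

theorem Skew.add (hX : Skew n X) (hY : Skew n Y) : Skew n (X + Y) := fun x y => by
  simp only [LinearMap.add_apply, map_add, hX x y, hY x y]
  ring

theorem Skew.smul (hX : Skew n X) (t : F) : Skew n (t • X) := fun x y => by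
  simp only [LinearMap.smul_apply, map_smul, hX x y, smul_eq_mul]
  ring

theorem Skew.neg (hX : Skew n X) : Skew n (-X) := by simpa using hX.smul (-1)

theorem Skew.br (hX : Skew n X) (hY : Skew n Y) : Skew n (X * Y - Y * X) := fun x y => by
  simp only [LinearMap.sub_apply, End.mul_apply, map_sub, hX _ y, hY _ y, hY x, hX x]
  ring

theorem sig_mem {m : Type} [Fintype m] (b : Basis m F V) {W : Submodule F (End F V)}
    (h : ∀ i j, sig n (b i) (b j) ∈ W) (x y : V) : sig n x y ∈ W := by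
  let S : V →ₗ[F] V →ₗ[F] End F V := LinearMap.mk₂ F (sig n)
    (fun x y z => LinearMap.ext fun w => by
      simp only [sig_apply, map_add, LinearMap.add_apply]
      module)
    (fun t x y => LinearMap.ext fun w => by
      simp only [sig_apply, map_smul, LinearMap.smul_apply, smul_eq_mul]
      module)
    (fun x y z => LinearMap.ext fun w => by
      simp only [sig_apply, map_add, LinearMap.add_apply]
      module)
    (fun t x y => LinearMap.ext fun w => by
      simp only [sig_apply, map_smul, LinearMap.smul_apply, smul_eq_mul]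
      module)
  change S x y ∈ W
  rw [← b.sum_repr x, ← b.sum_repr y]
  simp only [map_sum, map_smul, LinearMap.sum_apply, LinearMap.smul_apply]
  exact sum_mem fun j _ => W.smul_mem _ (sum_mem fun i _ => W.smul_mem _ (h i j))

/-- Descent along a semilinear map whose square is a scalar. -/
theorem span_comm [CharZero F] {L : Set (End F V)} {σ : F →+* F} (hσ : ∀ x, σ (σ x) = x)
    {J : V → V} (hadd : ∀ x y, J (x + y) = J x + J y) (hsm : ∀ (t : F) x, J (t • x) = σ t • J x)
    {κ δ : F} (hκ : κ ≠ 0) (hσκ : σ κ = κ) (hJJ : ∀ x, J (J x) = κ • x) (hδ : δ ≠ 0)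
    (hσδ : σ δ = -δ) (h1 : ∀ X ∈ L, ∀ Y ∈ L, X + Y ∈ L) (h2 : ∀ X ∈ L, -X ∈ L)
    (h3 : ∀ X ∈ L, δ • X ∈ L)
    (hθ : ∀ X ∈ L, ∀ Y : End F V, (∀ x, Y (J x) = J (X x)) → Y ∈ L) :
    Submodule.span F L ≤ Submodule.span F {X | X ∈ L ∧ ∀ x, X (J x) = J (X x)} := by
  refine Submodule.span_le.2 fun X hX => ?_
  let Y : End F V :=
    { toFun := fun x => κ⁻¹ • J (X (J x))
      map_add' := fun x y => by rw [hadd, map_add, hadd, smul_add]
      map_smul' := fun t x => by rw [hsm, map_smul, hsm, hσ, smul_comm]; rfl }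
  have hY : ∀ x, Y x = κ⁻¹ • J (X (J x)) := fun x => rfl
  have e1 : ∀ x, Y (J x) = J (X x) := fun x => by
    rw [hY, hJJ, map_smul, hsm, hσκ, smul_smul, inv_mul_cancel₀ hκ, one_smul]
  have e2 : ∀ x, J (Y x) = X (J x) := fun x => by
    rw [hY, hsm, hJJ, map_inv₀, hσκ, smul_smul, inv_mul_cancel₀ hκ, one_smul]
  have hYL := hθ X hX Y e1
  have a1 : X + Y ∈ {X | X ∈ L ∧ ∀ x, X (J x) = J (X x)} :=
    ⟨h1 X hX Y hYL, fun x => by
      rw [LinearMap.add_apply, LinearMap.add_apply, hadd, e1, e2, add_comm]⟩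
  have a2 : δ • (X + -Y) ∈ {X | X ∈ L ∧ ∀ x, X (J x) = J (X x)} :=
    ⟨h3 _ (h1 X hX _ (h2 Y hYL)), fun x => by
      simp only [LinearMap.smul_apply, LinearMap.add_apply, LinearMap.neg_apply]
      rw [hsm, hadd, ← neg_one_smul F (Y x), hsm, e1, e2, hσδ, map_neg, map_one]
      module⟩
  have e : X = (2 : F)⁻¹ • (X + Y) + (2 * δ)⁻¹ • (δ • (X + -Y)) := by
    rw [smul_smul, show (2 * δ)⁻¹ * δ = 2⁻¹ by field_simp]
    module
  rw [SetLike.mem_coe, e]
  exact add_mem (Submodule.smul_mem _ _ (Submodule.subset_span a1))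
    (Submodule.smul_mem _ _ (Submodule.subset_span a2))

end gen

variable {F : Type} [Field F] {a b c d q : F}

/-- The coordinates. -/
def eqv (a b : F) : Oc a b ≃ₗ[F] (Fin 8 → F) where
  toFun x := ![x.1.re, x.1.imI, x.1.imJ, x.1.imK, x.2.re, x.2.imI, x.2.imJ, x.2.imK]
  invFun v := (⟨v 0, v 1, v 2, v 3⟩, ⟨v 4, v 5, v 6, v 7⟩)
  map_add' x y := by
    funext i
    fin_cases i <;> rfl
  map_smul' t x := by
    funext i
    fin_cases i <;> rfl
  left_inv x := rfl
  right_inv v := by
    funext i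
    fin_cases i <;> rfl

/-- The standard basis. -/
noncomputable def bs (a b : F) : Basis (Fin 8) F (Oc a b) := Basis.ofEquivFun (eqv a b)

theorem bs_symm (v : Fin 8 → F) :
    (bs a b).equivFun.symm v = (⟨v 0, v 1, v 2, v 3⟩, ⟨v 4, v 5, v 6, v 7⟩) := by
  rw [bs, Basis.equivFun_ofEquivFun]
  rfl

theorem bs_eq (i : Fin 8) : bs a b i = (bs a b).equivFun.symm (Pi.single i 1) := by
  rw [bs, Basis.equivFun_ofEquivFun, Basis.coe_ofEquivFun]

theorem mp_symm {Ω : Type} [Field Ω] {a' b' : Ω} (τ : F → Ω) (v : Fin 8 → F) :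
    mp τ ((bs a b).equivFun.symm v) = (bs a' b').equivFun.symm fun i => τ (v i) := by
  rw [bs_symm, bs_symm]
  rfl

theorem mp_bs {Ω : Type} [Field Ω] {a' b' : Ω} (τ : F →+* Ω) (i : Fin 8) :
    mp τ (bs a b i) = bs a' b' i := by
  rw [bs_eq, bs_eq, mp_symm]
  congr 1
  funext j
  by_cases h : j = i <;> simp [h]

theorem bs_cases (i : Fin 8) : bs a b i = kk 1 0 ∨ (bs a b i).1.re = 0 := by
  rw [bs_eq, bs_symm]
  by_cases h : i = 0
  · left
    subst h
    rfl
  · right
    exact Pi.single_eq_of_ne (Ne.symm h) 1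

theorem frm [CharZero F] (ha : a ≠ 0) (hb : b ≠ 0) (hc : c ≠ 0) :
    Frm (nL c : Oc a b →ₗ[F] Oc a b →ₗ[F] F) where
  symm := nL_symm c
  dim := by rw [finrank_eq_card_basis (bs a b), Fintype.card_fin]
  nd x hx := by
    have h0 := hx (⟨1, 0, 0, 0⟩, ⟨0, 0, 0, 0⟩)
    have h1 := hx (⟨0, 1, 0, 0⟩, ⟨0, 0, 0, 0⟩)
    have h2 := hx (⟨0, 0, 1, 0⟩, ⟨0, 0, 0, 0⟩)
    have h3 := hx (⟨0, 0, 0, 1⟩, ⟨0, 0, 0, 0⟩)
    have h4 := hx (⟨0, 0, 0, 0⟩, ⟨1, 0, 0, 0⟩)
    have h5 := hx (⟨0, 0, 0, 0⟩, ⟨0, 1, 0, 0⟩)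
    have h6 := hx (⟨0, 0, 0, 0⟩, ⟨0, 0, 1, 0⟩)
    have h7 := hx (⟨0, 0, 0, 0⟩, ⟨0, 0, 0, 1⟩)
    rw [nL_eq] at h0 h1 h2 h3 h4 h5 h6 h7
    simp [ha, hb, hc] at h0 h1 h2 h3 h4 h5 h6 h7
    exact oc_ext h0 h1 h2 h3 h4 h5 h6 h7

variable {r s i : F →+* F}

theorem oc_add (x y : Oc a b) : oc (x + y) = oc x + oc y := ocL.map_add x y

theorem oc_smul (t : F) (x : Oc a b) : oc (t • x) = t • oc x := ocL.map_smul t x

theorem st_add_left (x x' y : Oc a b) : st c r (x + x') y = st c r x y + st c r x' y := by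
  simp only [st, ap_eq, oc_add, mp_add]
  exact (omL c).map_add₂ _ _ _

theorem st_add_right (x y y' : Oc a b) : st c r x (y + y') = st c r x y + st c r x y' := by
  simp only [st, ap_eq, oc_add, mp_add]
  exact (omL c _).map_add _ _

theorem st_smul_left (t : F) (x y : Oc a b) : st c r (t • x) y = r t • st c r x y := by
  simp only [st, ap_eq, oc_smul, mp_smul, om_smul_left]

theorem st_smul_right (t : F) (x y : Oc a b) : st c r x (t • y) = r (r t) • st c r x y := by
  simp only [st, ap_eq, oc_smul, mp_smul, om_smul_right]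

theorem st_neg_left (x y : Oc a b) : st c r (-x) y = -st c r x y := by
  rw [← neg_one_smul F x, st_smul_left, map_neg, map_one, neg_one_smul]

theorem st_neg_right (x y : Oc a b) : st c r x (-y) = -st c r x y := by
  rw [← neg_one_smul F y, st_smul_right, map_neg, map_neg, map_one, map_one, neg_one_smul]

theorem Jm_add (x y : Oc a b) : Jm c r s d q (x + y) = Jm c r s d q x + Jm c r s d q y := by
  simp only [Jm_eq, mp_add, ← twL_apply, map_add]

theorem Jm_smul (t : F) (x : Oc a b) : Jm c r s d q (t • x) = s t • Jm c r s d q x := by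
  simp only [Jm_eq, mp_smul, ← twL_apply, map_smul]

theorem io_add (x y : Oc a b) : io i (x + y) = io i x + io i y := by
  simp only [io, ap_eq, oc_add, mp_add]

theorem io_smul (t : F) (x : Oc a b) : io i (t • x) = i t • io i x := by
  simp only [io, ap_eq, oc_smul, mp_smul]

variable (c r) in
/-- Related triples. -/
def Der (X Y Z : End F (Oc a b)) : Prop :=
  ∀ x y z, nL c (st c r (X x) y) z + nL c (st c r x (Y y)) z + nL c (st c r x y) (Z z) = 0

variable {X Y Z X' Y' Z' : End F (Oc a b)}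

theorem Der.add (h : Der c r X Y Z) (h' : Der c r X' Y' Z') :
    Der c r (X + X') (Y + Y') (Z + Z') := fun x y z => by
  simp only [LinearMap.add_apply, st_add_left, st_add_right, map_add]
  linear_combination h x y z + h' x y z

theorem Der.smul (h : Der c r X Y Z) {t u v : F} (h1 : r t = v) (h2 : r (r u) = v) :
    Der c r (t • X) (u • Y) (v • Z) := fun x y z => by
  simp only [LinearMap.smul_apply, st_smul_left, st_smul_right, map_smul, smul_eq_mul, h1, h2]
  linear_combination v * h x y z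

theorem Der.br (h : Der c r X Y Z) (h' : Der c r X' Y' Z') :
    Der c r (X * X' - X' * X) (Y * Y' - Y' * Y) (Z * Z' - Z' * Z) := fun x y z => by
  simp only [sub_eq_add_neg, LinearMap.add_apply, LinearMap.neg_apply, End.mul_apply, st_add_left,
    st_add_right, st_neg_left, st_neg_right, map_add, map_neg]
  linear_combination h (X' x) y z + h x (Y' y) z + h x y (Z' z) - h' (X x) y z - h' x (Y y) z
    - h' x y (Z z)

theorem Der.cyc (H : Hy r s a b c d q) (h : Der c r X Y Z) : Der c r Z X Y := fun z x y => by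
  have := congrArg r (h x y z)
  rw [map_add, map_add, H.st_cyc, H.st_cyc, H.st_cyc, map_zero] at this
  linear_combination this

variable (a b c r) in
/-- The skew derivations of the cyclic composition. -/
def L0 : Set (End F (Oc a b)) := {X | Skew (nL c) X ∧ Der c r X X X}

theorem mem_span0 (H : Hy r s a b c d q) (hX : Skew (nL c) X) (hY : Skew (nL c) Y)
    (hZ : Skew (nL c) Z) (h : Der c r X Y Z) : Z ∈ Submodule.span F (L0 a b c r) := by
  obtain ⟨x, hx⟩ := H.rne
  have h1 : r (r x) ≠ r x := fun e => hx (r.injective e)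
  have h2 : r (r x) ≠ x := fun e => hx ((congrArg r e).symm.trans (H.r3 x))
  refine descent ![r.comp r, r, RingHom.id F] ?_ ![X, Y, Z] _ (fun t => ?_) 2
  · intro u v huv
    have := congrArg (fun f : F →+* F => f x) huv
    fin_cases u <;> fin_cases v
    exacts [rfl, (h1 this).elim, (h2 this).elim, (h1 this.symm).elim, rfl, (hx this).elim,
      (h2 this.symm).elim, (hx this.symm).elim, rfl]
  · rw [Fin.sum_univ_three]
    refine Submodule.subset_span ⟨((hX.smul _).add (hY.smul _)).add (hZ.smul _), ?_⟩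
    have h3 := h.smul (H.r3 t) (H.r3 t)
    have h4 := (h3.add ((h3.cyc H).cyc H)).add (h3.cyc H)
    change Der c r (r (r t) • X + r t • Y + t • Z) (r (r t) • X + r t • Y + t • Z)
      (r (r t) • X + r t • Y + t • Z)
    rwa [show r t • Y + t • Z + r (r t) • X = r (r t) • X + r t • Y + t • Z by abel,
      show t • Z + r (r t) • X + r t • Y = r (r t) • X + r t • Y + t • Z by abel] at h4

theorem skew_L {u : Oc a b} (hu : u.1.re = 0) : Skew (nL c) (omL c u) := fun x y => by
  rw [omL_apply, omL_apply, nL_left, oc_im hu, ← omL_apply, map_neg, LinearMap.neg_apply, map_neg,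
    omL_apply]

theorem skew_R {u : Oc a b} (hu : u.1.re = 0) : Skew (nL c) ((omL c).flip u) := fun x y => by
  rw [LinearMap.flip_apply, LinearMap.flip_apply, omL_apply, omL_apply, nL_right, oc_im hu,
    ← omL_apply, map_neg, map_neg, omL_apply]

theorem sig_one {u : Oc a b} (hu : u.1.re = 0) :
    sig (nL c) (kk 1 0) u = omL c u + (omL c).flip u :=
  LinearMap.ext fun z => (jordan c hu z).symm

theorem der_im (H : Hy r s a b c d q) {u : Oc a b} (hu : u.1.re = 0) (hr : mp r u = u) :
    Der c r (-(omL c).flip u) (-omL c u) (sig (nL c) (kk 1 0) u) := fun x y z => by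
  have e : (mp r (oc u) : Oc a b) = -u := by rw [mp_oc, hr, oc_im hu]
  have e' : (mp r (-u) : Oc a b) = -u := by rw [← oc_im hu, e, oc_im hu]
  have h1 := congrArg (fun w => nL c w z)
    (flex c u (mp r (oc x)) (mp r (mp r (oc y) : Oc a b) : Oc a b))
  have h2 := (skew_L (c := c) hu).add (skew_R hu) (st c r x y) z
  rw [sig_one hu]
  simp only [LinearMap.neg_apply, LinearMap.flip_apply, st_neg_left, st_neg_right, omL_apply,
    LinearMap.add_apply, map_add, map_neg] at h1 h2 ⊢
  simp only [st, ap_eq, oc_om, mp_om H.ra H.rb H.rc, e, e'] at h2 ⊢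
  simp only [← omL_apply, map_neg, LinearMap.neg_apply] at h1 h2 ⊢
  linear_combination h2 - h1

theorem sig_span0 [CharZero F] (H : Hy r s a b c d q) (x y : Oc a b) :
    sig (nL c) x y ∈ Submodule.span F (L0 a b c r) := by
  have hF := frm H.a0 H.b0 H.c0
  have h1 : ∀ j, (bs a b j).1.re = 0 →
      sig (nL c) (kk 1 0) (bs a b j) ∈ Submodule.span F (L0 a b c r) := fun j hj =>
    mem_span0 H (skew_R hj).neg (skew_L hj).neg (hF.skew_sig _ _) (der_im H hj (mp_bs r j))
  refine sig_mem (bs a b) (fun j k => ?_) x y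
  rcases bs_cases (a := a) (b := b) j with hj | hj <;>
    rcases bs_cases (a := a) (b := b) k with hk | hk
  · rw [hj, hk, sig, sub_self]
    exact zero_mem _
  · rw [hj]
    exact h1 k hk
  · rw [hk, sig, ← neg_sub]
    exact neg_mem (h1 j hj)
  · have h2 := mem_span0 H ((skew_R hj).neg.br (skew_R hk).neg) ((skew_L hj).neg.br (skew_L hk).neg)
      ((hF.skew_sig _ _).br (hF.skew_sig _ _))
      ((der_im H hj (mp_bs r j)).br (der_im H hk (mp_bs r k)))
    rw [(hF.skew_sig _ _).bracket] at h2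
    have e : sig (nL c) (bs a b j) (bs a b k) = (2 : F)⁻¹ •
        (sig (nL c) (sig (nL c) (kk 1 0) (bs a b j) (kk 1 0)) (bs a b k)
          + sig (nL c) (kk 1 0) (sig (nL c) (kk 1 0) (bs a b j) (bs a b k))) := by
      refine LinearMap.ext fun z => ?_
      simp only [sig_apply, LinearMap.smul_apply, LinearMap.add_apply, map_sub, map_smul,
        LinearMap.sub_apply, nL_symm c (bs a b j) (kk 1 0), nL_one, hj, hk, kkc, smul_eq_mul]
      module
    rw [e]
    exact Submodule.smul_mem _ _ h2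

end Vale.Agent.P011Z.ModD4
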