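import Vale.Agent.P011Z.ModD4.Lie

/-!
Descent of the Lie algebra along the two semilinear maps.
-/

open Module

namespace Vale.Agent.P011Z.ModD4

open Vale.Agent.P011.H900

variable {F : Type} [Field F] {a b c d q : F} {r s i : F →+* F}

variable (a b c r s d q) in
/-- The skew derivations which commute with the first semilinear map. -/
def L1 : Set (End F (Oc a b)) :=
  {X | X ∈ L0 a b c r ∧ ∀ x, X (Jm c r s d q x) = Jm c r s d q (X x)}

variable (a b c r s d q i) in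
/-- The Lie algebra of the group. -/
def L2 (E : Prop) : Set (End F (Oc a b)) :=
  {X | X ∈ L1 a b c d q r s ∧ (E → ∀ x, X (io i x) = io i (X x))}

theorem L0_add {X Y : End F (Oc a b)} (hX : X ∈ L0 a b c r) (hY : Y ∈ L0 a b c r) :
    X + Y ∈ L0 a b c r := ⟨hX.1.add hY.1, hX.2.add hY.2⟩

theorem L0_smul {X : End F (Oc a b)} (hX : X ∈ L0 a b c r) {t : F} (ht : r t = t) :
    t • X ∈ L0 a b c r := ⟨hX.1.smul t, hX.2.smul ht (by rw [ht, ht])⟩

theorem L0_neg {X : End F (Oc a b)} (hX : X ∈ L0 a b c r) : -X ∈ L0 a b c r := by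
  rw [← neg_one_smul F X]
  exact L0_smul hX (by simp)

theorem L1_smul {X : End F (Oc a b)} (hX : X ∈ L1 a b c d q r s) {t : F} (ht : r t = t)
    (hs : s t = t) : t • X ∈ L1 a b c d q r s :=
  ⟨L0_smul hX.1 ht, fun x => by rw [LinearMap.smul_apply, LinearMap.smul_apply, Jm_smul, hs, hX.2]⟩

theorem exists_delta [NumberField F] (H : Hy r s a b c d q) (hi : Hi r s i a b c d q) :
    ∃ δ : F, δ ≠ 0 ∧ r δ = δ ∧ s δ = δ ∧ i δ = -δ := by
  have key : ∃ y, r y = y ∧ s y = y ∧ i y ≠ y := by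
    by_contra hy
    push Not at hy
    let A : (F →+* F) → F ≃ₐ[ℚ] F := fun f =>
      AlgEquiv.ofBijective f.toRatAlgHom (Algebra.IsAlgebraic.algHom_bijective _)
    have hA : ∀ f x, A f x = f x := fun f x => rfl
    have h1 : A i ∈ Subgroup.centralizer {A r} := by
      rw [← IntermediateField.fixingSubgroup_fixedField (Subgroup.centralizer {A r}),
        IntermediateField.mem_fixingSubgroup_iff]
      intro x hx
      rw [IntermediateField.mem_fixedField_iff] at hx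
      refine hy x (hx (A r) (Subgroup.mem_centralizer_singleton_iff.2 rfl))
        (hx (A s) (Subgroup.mem_centralizer_singleton_iff.2 (AlgEquiv.ext fun z => ?_)))
      exact (H.rs z).symm
    have h2 : ∀ x, i (r x) = r (i x) := fun x =>
      congrArg (fun f : F ≃ₐ[ℚ] F => f x) (Subgroup.mem_centralizer_singleton_iff.1 h1)
    obtain ⟨x, hx⟩ := H.rne
    have h3 := hi.ri (i (r x))
    rw [h2 (i (r x)), hi.i2, H.r3] at h3
    exact hx h3.symm
  obtain ⟨y, h1, h2, h3⟩ := key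
  refine ⟨y - i y, sub_ne_zero.2 h3.symm, ?_, ?_, ?_⟩
  · have := hi.ri y
    rw [h1] at this
    rw [map_sub, h1, this]
  · rw [map_sub, h2, hi.si, h2]
  · rw [map_sub, hi.i2, neg_sub]

variable [CharZero F]

theorem Hy.J_surj (H : Hy r s a b c d q) (x : Oc a b) : ∃ y, x = Jm c r s d q y :=
  ⟨(q * (q * r q))⁻¹ • Jm c r s d q x, by
    rw [Jm_smul, H.JJ, map_inv₀, H.sk, smul_smul, inv_mul_cancel₀ H.k0, one_smul]⟩

theorem Hy.T_J (H : Hy r s a b c d q) (x y z : Oc a b) :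
    nL c (st c r (Jm c r s d q x) (Jm c r s d q y)) (Jm c r s d q z) = s (nL c (st c r x y) z) := by
  refine mul_left_cancel₀ H.k0 ?_
  rw [← H.nJ, H.J_st, map_smul, LinearMap.smul_apply, smul_eq_mul]

theorem span01 (H : Hy r s a b c d q) :
    Submodule.span F (L0 a b c r) ≤ Submodule.span F (L1 a b c d q r s) := by
  refine span_comm H.s2 Jm_add Jm_smul H.k0 H.sk H.JJ H.d0 H.sd (fun X hX Y hY => L0_add hX hY)
    (fun X hX => L0_neg hX) (fun X hX => L0_smul hX H.rd) fun X hX Y hY => ⟨fun x y => ?_,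
      fun x y z => ?_⟩
  · obtain ⟨x, rfl⟩ := H.J_surj x
    obtain ⟨y, rfl⟩ := H.J_surj y
    rw [hY, hY, H.nJ, H.nJ, hX.1, map_neg, mul_neg]
  · obtain ⟨x, rfl⟩ := H.J_surj x
    obtain ⟨y, rfl⟩ := H.J_surj y
    obtain ⟨z, rfl⟩ := H.J_surj z
    rw [hY, hY, hY, H.T_J, H.T_J, H.T_J, ← map_add, ← map_add, hX.2, map_zero]

omit [CharZero F] in
theorem span12 [NumberField F] (H : Hy r s a b c d q) {E : Prop} (hi : E → Hi r s i a b c d q) :
    Submodule.span F (L1 a b c d q r s) ≤ Submodule.span F (L2 a b c d q r s i E) := by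
  by_cases hE : E
  swap
  · exact Submodule.span_mono fun X hX => ⟨hX, fun h => (hE h).elim⟩
  have hi := hi hE
  obtain ⟨δ, h0, h1, h2, h3⟩ := exists_delta H hi
  have sj : ∀ x : Oc a b, ∃ y, x = io i y := fun x => ⟨_, (hi.io_io x).symm⟩
  refine le_trans (span_comm (κ := 1) hi.i2 io_add io_smul one_ne_zero (map_one i)
    (fun x => by rw [hi.io_io, one_smul]) h0 h3 (fun X hX Y hY => ⟨L0_add hX.1 hY.1, fun x => ?_⟩)
    (fun X hX => ?_) (fun X hX => L1_smul hX h1 h2)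
    fun X hX Y hY => ⟨⟨fun x y => ?_, fun x y z => ?_⟩, fun x => ?_⟩)
    (Submodule.span_mono fun X hX => ⟨hX.1, fun _ => hX.2⟩)
  · rw [LinearMap.add_apply, LinearMap.add_apply, Jm_add, hX.2, hY.2]
  · rw [← neg_one_smul F X]
    exact L1_smul hX (by simp) (by simp)
  · obtain ⟨x, rfl⟩ := sj x
    obtain ⟨y, rfl⟩ := sj y
    rw [hY, hY, hi.n_io, hi.n_io, hX.1.1, map_neg]
  · obtain ⟨x, rfl⟩ := sj x
    obtain ⟨y, rfl⟩ := sj y
    obtain ⟨z, rfl⟩ := sj z
    rw [hY, hY, hY, ← H.io_st hi, ← H.io_st hi, ← H.io_st hi, hi.n_io, hi.n_io, hi.n_io, ← map_add,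
      ← map_add, add_comm (nL c (st c r y (X x)) z), hX.1.2, map_zero]
  · obtain ⟨x, rfl⟩ := sj x
    rw [hY, H.J_io hi, H.J_io hi, map_smul, hY, hX.2]

omit [CharZero F] in
theorem sig_span [NumberField F] (H : Hy r s a b c d q) {E : Prop} (hi : E → Hi r s i a b c d q)
    (x y : Oc a b) : sig (nL c) x y ∈ Submodule.span F (L2 a b c d q r s i E) :=
  span12 H hi (span01 H (sig_span0 H x y))

end Vale.Agent.P011Z.ModD4
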