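import Mathlib

/-!
The orthogonal Lie algebra in dimension eight: irreducibility, commutant, no commuting ideals.
-/

open Module

namespace Vale.Agent.P011Z.ModD4

variable {F V : Type} [Field F] [AddCommGroup V] [Module F V]

/-- The elementary skew map. -/
def sig (n : V →ₗ[F] V →ₗ[F] F) (x y : V) : End F V := (n x).smulRight y - (n y).smulRight x

theorem sig_apply (n : V →ₗ[F] V →ₗ[F] F) (x y z : V) : sig n x y z = n x z • y - n y z • x := rfl

/-- Skew maps. -/
def Skew (n : V →ₗ[F] V →ₗ[F] F) (X : End F V) : Prop := ∀ x y, n (X x) y = -n x (X y)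

/-- A nondegenerate symmetric form in dimension eight. -/
structure Frm (n : V →ₗ[F] V →ₗ[F] F) : Prop where
  symm : ∀ x y, n x y = n y x
  nd : ∀ x, (∀ y, n x y = 0) → x = 0
  dim : finrank F V = 8

variable {n : V →ₗ[F] V →ₗ[F] F}

theorem Skew.bracket {X : End F V} (hX : Skew n X) (x y : V) :
    X * sig n x y - sig n x y * X = sig n (X x) y + sig n x (X y) := by
  refine LinearMap.ext fun z => ?_
  simp only [LinearMap.sub_apply, LinearMap.add_apply, End.mul_apply, sig_apply, map_sub, map_smul,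
    hX x z, hX y z]
  module

namespace Frm

variable (h : Frm n)
include h

theorem fd : FiniteDimensional F V := Module.finite_of_finrank_pos (by rw [h.dim]; norm_num)

theorem skew_sig (x y : V) : Skew n (sig n x y) := fun u v => by
  simp only [sig_apply, map_sub, map_smul, LinearMap.sub_apply, LinearMap.smul_apply, smul_eq_mul,
    h.symm u x, h.symm u y]
  ring

theorem exists_one {w : V} (hw : w ≠ 0) : ∃ x, n x w = 1 := by
  by_contra hx
  push Not at hx
  refine hw (h.nd w fun y => ?_)
  by_contra hy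
  refine hx ((n w y)⁻¹ • y) ?_
  rw [map_smul, LinearMap.smul_apply, h.symm y w, smul_eq_mul, inv_mul_cancel₀ hy]

theorem two_perp (u v : V) : ∃ y, y ≠ 0 ∧ n u y = 0 ∧ n v y = 0 := by
  have := h.fd
  have h1 := LinearMap.ker_ne_bot_of_finrank_lt (f := (n u).prod (n v)) (by
    rw [h.dim, finrank_prod, finrank_self]
    norm_num)
  obtain ⟨y, hy, hy0⟩ := (Submodule.ne_bot_iff _).1 h1
  exact ⟨y, hy0, congrArg Prod.fst hy, congrArg Prod.snd hy⟩

theorem irred {W : Submodule F V} (hW : W ≠ ⊥) (hi : ∀ x y, ∀ w ∈ W, sig n x y w ∈ W) : W = ⊤ := by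
  obtain ⟨w, hw, hw0⟩ := (Submodule.ne_bot_iff _).1 hW
  obtain ⟨x, hx⟩ := h.exists_one hw0
  have h1 : ∀ y, y - n y w • x ∈ W := fun y => by
    have := hi x y w hw
    rwa [sig_apply, hx, one_smul] at this
  obtain ⟨u, hu0, hu1, hu2⟩ := h.two_perp w x
  have h2 : u ∈ W := by
    have := h1 u
    rwa [h.symm u w, hu1, zero_smul, sub_zero] at this
  obtain ⟨y, hy⟩ := h.exists_one hu0
  have h3 : x ∈ W := by
    have := hi y x u h2
    rwa [sig_apply, hy, hu2, one_smul, zero_smul, sub_zero] at this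
  refine eq_top_iff.2 fun y _ => ?_
  have := add_mem (h1 y) (W.smul_mem (n y w) h3)
  rwa [sub_add_cancel] at this

theorem scalar {g : End F V} (hg : ∀ x y, g * sig n x y = sig n x y * g) :
    ∃ c : F, g = c • 1 := by
  obtain ⟨z, hz, -⟩ := h.two_perp 0 0
  obtain ⟨x, hx⟩ := h.exists_one hz
  obtain ⟨y, hy0, hy1, hy2⟩ := h.two_perp z (g z)
  refine ⟨n x (g z), ?_⟩
  have h1 : LinearMap.ker (g - n x (g z) • (1 : End F V)) = ⊤ := by
    refine h.irred ((Submodule.ne_bot_iff _).2 ⟨y, ?_, hy0⟩) fun u v w hw => ?_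
    · have := LinearMap.congr_fun (hg x y) z
      simp only [End.mul_apply, sig_apply, hx, h.symm y z, hy1, h.symm y (g z), hy2, one_smul,
        zero_smul, sub_zero] at this
      rw [LinearMap.mem_ker, LinearMap.sub_apply, this]
      simp
    · rw [LinearMap.mem_ker, LinearMap.sub_apply, sub_eq_zero] at hw ⊢
      have := LinearMap.congr_fun (hg u v) w
      rw [End.mul_apply, End.mul_apply, hw] at this
      rw [this]
      simp
  exact sub_eq_zero.1 (LinearMap.ker_eq_top.1 h1)

theorem mul_eq_zero [CharZero F] {X Y : End F V} (hX : Skew n X) (hY : Skew n Y)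
    (hc : X * Y = Y * X)
    (hb : ∀ x y, (X * sig n x y - sig n x y * X) * Y = Y * (X * sig n x y - sig n x y * X)) :
    X * Y = 0 := by
  have := h.fd
  have hP : ∀ x, Y (X x) = X (Y x) := fun x => (LinearMap.congr_fun hc x).symm
  have key : ∀ x z, 4 * n (X (Y x)) z + n x z * LinearMap.trace F V (X * Y)
      + n (X x) z * LinearMap.trace F V Y + n (Y x) z * LinearMap.trace F V X = 0 := by
    intro x z
    have e : n (X (Y x)) z • (1 : End F V) - (n z).smulRight (X (Y x)) + n (X x) z • Y
        - ((n z).comp Y).smulRight (X x) + n (Y x) z • X - ((n z).comp X).smulRight (Y x)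
        + n x z • (X * Y) - ((n z).comp (X * Y)).smulRight x = 0 := by
      refine LinearMap.ext fun y => ?_
      have h1 := LinearMap.congr_fun (hb x y) z
      rw [hX.bracket] at h1
      simp only [End.mul_apply, LinearMap.add_apply, sig_apply, map_add, map_sub, map_smul] at h1
      have a1 : n (X x) (Y z) = -n (X (Y x)) z := by rw [← hP, hY, neg_neg]
      have a2 : n y (Y z) = -n z (Y y) := by rw [h.symm z, hY, neg_neg]
      have a3 : n x (Y z) = -n (Y x) z := by rw [hY, neg_neg]
      have a4 : n (X y) (Y z) = -n z (X (Y y)) := by rw [h.symm z, ← hP, hY, neg_neg]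
      rw [a1, a2, a3, a4, hP, hP, h.symm y z, h.symm (X y) z] at h1
      simp only [LinearMap.sub_apply, LinearMap.add_apply, LinearMap.smul_apply, End.one_apply,
        LinearMap.smulRight_apply, LinearMap.comp_apply, End.mul_apply, LinearMap.zero_apply]
      linear_combination (norm := module) -h1
    have h2 := congrArg (LinearMap.trace F V) e
    simp only [map_sub, map_add, map_smul, LinearMap.trace_one, LinearMap.trace_smulRight,
      LinearMap.comp_apply, End.mul_apply, smul_eq_mul, map_zero, h.dim, hP, h.symm z] at h2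
    push_cast at h2
    linear_combination h2
  have h3 : X * Y = (-(LinearMap.trace F V (X * Y)) / 4) • (1 : End F V) := by
    refine LinearMap.ext fun x => sub_eq_zero.1 (h.nd _ fun z => ?_)
    have k1 := key x z
    have k2 := key z x
    have a1 : n (X (Y z)) x = n (X (Y x)) z := by
      rw [hX, hY, neg_neg, hP, h.symm z]
    have a2 : n (X z) x = -n (X x) z := by rw [hX, h.symm z]
    have a3 : n (Y z) x = -n (Y x) z := by rw [hY, h.symm z]
    rw [a1, a2, a3, h.symm z x] at k2
    simp only [map_sub, LinearMap.sub_apply, End.mul_apply, LinearMap.smul_apply, End.one_apply,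
      map_smul, smul_eq_mul]
    linear_combination (k1 + k2) / 8
  have h4 := congrArg (LinearMap.trace F V) h3
  rw [map_smul, LinearMap.trace_one, h.dim, smul_eq_mul] at h4
  have h5 : LinearMap.trace F V (X * Y) = 0 := by
    push_cast at h4
    linear_combination h4 / 3
  rw [h3, h5]
  simp

theorem prime [CharZero F] {I J : Set (End F V)} (hI : ∀ X ∈ I, Skew n X) (hJ : ∀ Y ∈ J, Skew n Y)
    (iI : ∀ X ∈ I, ∀ x y, X * sig n x y - sig n x y * X ∈ I)
    (iJ : ∀ Y ∈ J, ∀ x y, sig n x y * Y - Y * sig n x y ∈ J)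
    (hc : ∀ X ∈ I, ∀ Y ∈ J, X * Y = Y * X) : (∀ X ∈ I, X = 0) ∨ ∀ Y ∈ J, Y = 0 := by
  by_cases hJ0 : ∀ Y ∈ J, Y = 0
  · exact Or.inr hJ0
  push Not at hJ0
  obtain ⟨Y, hY, hY0⟩ := hJ0
  obtain ⟨v, hv⟩ : ∃ v, Y v ≠ 0 := by
    by_contra hv
    push Not at hv
    exact hY0 (LinearMap.ext hv)
  have h1 : Submodule.span F {w | ∃ Z ∈ J, ∃ u, w = Z u} = ⊤ := by
    refine h.irred ((Submodule.ne_bot_iff _).2 ⟨Y v, Submodule.subset_span ⟨Y, hY, v, rfl⟩, hv⟩)
      fun x y w hw => ?_
    refine Submodule.span_induction (p := fun w _ => sig n x y w ∈ _) ?_ ?_ ?_ ?_ hw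
    · rintro _ ⟨Z, hZ, u, rfl⟩
      have e : sig n x y (Z u) = (sig n x y * Z - Z * sig n x y) u + Z (sig n x y u) := by
        simp
      rw [e]
      exact add_mem (Submodule.subset_span ⟨_, iJ Z hZ x y, u, rfl⟩)
        (Submodule.subset_span ⟨Z, hZ, _, rfl⟩)
    · simp
    · intro a b _ _ ha hb
      rw [map_add]
      exact add_mem ha hb
    · intro c a _ ha
      rw [map_smul]
      exact Submodule.smul_mem _ c ha
  refine Or.inl fun X hX => LinearMap.ker_eq_top.1 (top_le_iff.1 ?_)
  rw [← h1, Submodule.span_le]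
  rintro _ ⟨Z, hZ, u, rfl⟩
  exact LinearMap.congr_fun (h.mul_eq_zero (hI X hX) (hJ Z hZ) (hc X hX Z hZ)
    fun x y => hc _ (iI X hX x y) Z hZ) u

end Frm

end Vale.Agent.P011Z.ModD4
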