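import Vale.Agent.P011.H900.SpecX
import Vale.Agent.P011Z.ModD4.So

/-!
Identities in octonion algebras.
-/

open Module

namespace Vale.Agent.P011Z.ModD4

open Vale.Agent.P011.H900

variable {F : Type} [Field F] {a b : F}

theorem oc_ext {x y : Oc a b} (h0 : x.1.re = y.1.re) (h1 : x.1.imI = y.1.imI)
    (h2 : x.1.imJ = y.1.imJ) (h3 : x.1.imK = y.1.imK) (h4 : x.2.re = y.2.re)
    (h5 : x.2.imI = y.2.imI) (h6 : x.2.imJ = y.2.imJ) (h7 : x.2.imK = y.2.imK) : x = y :=
  Prod.ext (QuaternionAlgebra.ext h0 h1 h2 h3) (QuaternionAlgebra.ext h4 h5 h6 h7)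

/-- The elements of the quadratic subalgebra. -/
def kk (u v : F) : Oc a b := (⟨u, v, 0, 0⟩, 0)

/-- A map applied to the coefficients. -/
def mp {Ω : Type} [Field Ω] {a' b' : Ω} (τ : F → Ω) (x : Oc a b) : Oc a' b' :=
  (⟨τ x.1.re, τ x.1.imI, τ x.1.imJ, τ x.1.imK⟩, ⟨τ x.2.re, τ x.2.imI, τ x.2.imJ, τ x.2.imK⟩)

theorem ap_eq (r : F → F) (x : Oc a b) : ap r x = mp r x := rfl

theorem omc (c : F) (x y : Oc a b) :
    (om c x y).1.re = x.1.re * y.1.re + a * x.1.imI * y.1.imI + b * x.1.imJ * y.1.imJ - a * b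
      * x.1.imK * y.1.imK + c * x.2.re * y.2.re - c * a * x.2.imI * y.2.imI - c * b * x.2.imJ *
      y.2.imJ + c * a * b * x.2.imK * y.2.imK ∧
    (om c x y).1.imI = x.1.re * y.1.imI + x.1.imI * y.1.re - b * x.1.imJ * y.1.imK + b *
      x.1.imK * y.1.imJ + c * x.2.imI * y.2.re - c * x.2.re * y.2.imI + c * b * x.2.imK *
      y.2.imJ - c * b * x.2.imJ * y.2.imK ∧
    (om c x y).1.imJ = x.1.re * y.1.imJ + a * x.1.imI * y.1.imK + x.1.imJ * y.1.re - a *
      x.1.imK * y.1.imI + c * x.2.imJ * y.2.re - c * a * x.2.imK * y.2.imI - c * x.2.re *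
      y.2.imJ + c * a * x.2.imI * y.2.imK ∧
    (om c x y).1.imK = x.1.re * y.1.imK + x.1.imI * y.1.imJ - x.1.imJ * y.1.imI + x.1.imK *
      y.1.re + c * x.2.imK * y.2.re - c * x.2.imJ * y.2.imI + c * x.2.imI * y.2.imJ - c * x.2.re
      * y.2.imK ∧
    (om c x y).2.re = x.1.re * y.2.re + a * x.1.imI * y.2.imI + b * x.1.imJ * y.2.imJ - a * b
      * x.1.imK * y.2.imK + x.2.re * y.1.re - a * x.2.imI * y.1.imI - b * x.2.imJ * y.1.imJ + a
      * b * x.2.imK * y.1.imK ∧
    (om c x y).2.imI = x.1.imI * y.2.re + x.1.re * y.2.imI - b * x.1.imK * y.2.imJ + b *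
      x.1.imJ * y.2.imK - x.2.re * y.1.imI + x.2.imI * y.1.re + b * x.2.imJ * y.1.imK - b *
      x.2.imK * y.1.imJ ∧
    (om c x y).2.imJ = x.1.imJ * y.2.re + a * x.1.imK * y.2.imI + x.1.re * y.2.imJ - a *
      x.1.imI * y.2.imK - x.2.re * y.1.imJ - a * x.2.imI * y.1.imK + x.2.imJ * y.1.re + a *
      x.2.imK * y.1.imI ∧
    (om c x y).2.imK = x.1.imK * y.2.re + x.1.imJ * y.2.imI - x.1.imI * y.2.imJ + x.1.re *
      y.2.imK - x.2.re * y.1.imK - x.2.imI * y.1.imJ + x.2.imJ * y.1.imI + x.2.imK * y.1.re := by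
  refine ⟨?_, ?_, ?_, ?_, ?_, ?_, ?_, ?_⟩ <;> simp [om] <;> ring

theorem occ (x : Oc a b) :
    (oc x).1.re = x.1.re ∧ (oc x).1.imI = -x.1.imI ∧ (oc x).1.imJ = -x.1.imJ ∧ (oc x).1.imK =
    -x.1.imK ∧ (oc x).2.re = -x.2.re ∧ (oc x).2.imI = -x.2.imI ∧ (oc x).2.imJ = -x.2.imJ ∧ (oc
    x).2.imK = -x.2.imK := by
  simp [oc]

theorem addc (x y : Oc a b) :
    (x + y).1.re = x.1.re + y.1.re ∧ (x + y).1.imI = x.1.imI + y.1.imI ∧ (x + y).1.imJ = x.1.imJ +
    y.1.imJ ∧ (x + y).1.imK = x.1.imK + y.1.imK ∧ (x + y).2.re = x.2.re + y.2.re ∧ (x + y).2.imI =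
    x.2.imI + y.2.imI ∧ (x + y).2.imJ = x.2.imJ + y.2.imJ ∧ (x + y).2.imK = x.2.imK + y.2.imK := by
  simp

theorem subc (x y : Oc a b) :
    (x - y).1.re = x.1.re - y.1.re ∧ (x - y).1.imI = x.1.imI - y.1.imI ∧ (x - y).1.imJ = x.1.imJ -
    y.1.imJ ∧ (x - y).1.imK = x.1.imK - y.1.imK ∧ (x - y).2.re = x.2.re - y.2.re ∧ (x - y).2.imI =
    x.2.imI - y.2.imI ∧ (x - y).2.imJ = x.2.imJ - y.2.imJ ∧ (x - y).2.imK = x.2.imK - y.2.imK := by
  simp

theorem negc (x : Oc a b) :
    (-x).1.re = -x.1.re ∧ (-x).1.imI = -x.1.imI ∧ (-x).1.imJ = -x.1.imJ ∧ (-x).1.imK = -x.1.imK ∧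
    (-x).2.re = -x.2.re ∧ (-x).2.imI = -x.2.imI ∧ (-x).2.imJ = -x.2.imJ ∧ (-x).2.imK = -x.2.imK := by
  simp

theorem smulc (t : F) (x : Oc a b) :
    (t • x).1.re = t * x.1.re ∧ (t • x).1.imI = t * x.1.imI ∧ (t • x).1.imJ = t * x.1.imJ ∧ (t •
    x).1.imK = t * x.1.imK ∧ (t • x).2.re = t * x.2.re ∧ (t • x).2.imI = t * x.2.imI ∧ (t •
    x).2.imJ = t * x.2.imJ ∧ (t • x).2.imK = t * x.2.imK := by
  simp

theorem kkc (u v : F) :
    (kk u v : Oc a b).1.re = u ∧ (kk u v : Oc a b).1.imI = v ∧ (kk u v : Oc a b).1.imJ = 0 ∧ (kk u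
    v : Oc a b).1.imK = 0 ∧ (kk u v : Oc a b).2.re = 0 ∧ (kk u v : Oc a b).2.imI = 0 ∧ (kk u v :
    Oc a b).2.imJ = 0 ∧ (kk u v : Oc a b).2.imK = 0 := by
  simp [kk]

theorem mpc {Ω : Type} [Field Ω] {a' b' : Ω} (τ : F → Ω) (x : Oc a b) :
    (mp τ x : Oc a' b').1.re = τ x.1.re ∧ (mp τ x : Oc a' b').1.imI = τ x.1.imI ∧ (mp τ x : Oc a'
    b').1.imJ = τ x.1.imJ ∧ (mp τ x : Oc a' b').1.imK = τ x.1.imK ∧ (mp τ x : Oc a' b').2.re = τ
    x.2.re ∧ (mp τ x : Oc a' b').2.imI = τ x.2.imI ∧ (mp τ x : Oc a' b').2.imJ = τ x.2.imJ ∧ (mp τ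
    x : Oc a' b').2.imK = τ x.2.imK := by
  simp [mp]

/-- The product as a bilinear map. -/
def omL (c : F) : Oc a b →ₗ[F] Oc a b →ₗ[F] Oc a b :=
  LinearMap.mk₂ F (om c)
    (fun x y z => by apply oc_ext <;> simp only [omc, addc] <;> ring)
    (fun t x y => by apply oc_ext <;> simp only [omc, smulc] <;> ring)
    (fun x y z => by apply oc_ext <;> simp only [omc, addc] <;> ring)
    (fun t x y => by apply oc_ext <;> simp only [omc, smulc] <;> ring)

theorem omL_apply (c : F) (x y : Oc a b) : omL c x y = om c x y := rfl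

theorem om_smul_left (c t : F) (x y : Oc a b) : om c (t • x) y = t • om c x y :=
  (omL c).map_smul₂ t x y

theorem om_smul_right (c t : F) (x y : Oc a b) : om c x (t • y) = t • om c x y :=
  (omL c x).map_smul t y

/-- The conjugation as a linear map. -/
def ocL : Oc a b →ₗ[F] Oc a b where
  toFun := oc
  map_add' x y := by apply oc_ext <;> simp only [occ, addc] <;> ring
  map_smul' t x := by apply oc_ext <;> simp only [occ, smulc, RingHom.id_apply] <;> ring

theorem ocL_apply (x : Oc a b) : ocL x = oc x := rfl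

/-- The norm form. -/
def nL (c : F) : Oc a b →ₗ[F] Oc a b →ₗ[F] F :=
  LinearMap.mk₂ F (fun x y => 2 * re (om c x (oc y)))
    (fun x y z => by simp only [omc, occ, re, addc]; ring)
    (fun t x y => by simp only [omc, occ, re, smulc, smul_eq_mul]; ring)
    (fun x y z => by simp only [omc, occ, re, addc]; ring)
    (fun t x y => by simp only [omc, occ, re, smulc, smul_eq_mul]; ring)

theorem nL_apply (c : F) (x y : Oc a b) : nL c x y = 2 * re (om c x (oc y)) := rfl

theorem nL_eq (c : F) (x y : Oc a b) : nL c x y = 2 * (x.1.re * y.1.re - a * x.1.imI * y.1.imI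
    - b * x.1.imJ * y.1.imJ + a * b * x.1.imK * y.1.imK - c * (x.2.re * y.2.re
    - a * x.2.imI * y.2.imI - b * x.2.imJ * y.2.imJ + a * b * x.2.imK * y.2.imK)) := by
  simp only [nL_apply, omc, occ, re]
  ring

variable (c : F)

theorem nL_symm (x y : Oc a b) : nL c x y = nL c y x := by
  rw [nL_eq, nL_eq]
  ring

theorem oc_oc (x : Oc a b) : oc (oc x) = x := by apply oc_ext <;> simp only [occ, neg_neg]

theorem oc_om (x y : Oc a b) : oc (om c x y) = om c (oc y) (oc x) := by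
  apply oc_ext <;> simp only [omc, occ] <;> ring

theorem nL_oc (x y : Oc a b) : nL c (oc x) (oc y) = nL c x y := by
  simp only [nL_eq, occ]
  ring

theorem alt_left (x y : Oc a b) : om c (oc x) (om c x y) = re (om c x (oc x)) • y := by
  apply oc_ext <;> simp only [omc, occ, re, smulc] <;> ring

theorem nL_left (u v w : Oc a b) : nL c (om c u v) w = nL c v (om c (oc u) w) := by
  simp only [nL_eq, omc, occ]
  ring

theorem nL_right (u v w : Oc a b) : nL c (om c v u) w = nL c v (om c w (oc u)) := by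
  simp only [nL_eq, omc, occ]
  ring

theorem flex (u x y : Oc a b) : om c u (om c x y) + om c (om c x y) u
    = om c (om c u x) y + om c x (om c y u) := by
  apply oc_ext <;> simp only [omc, addc] <;> ring

theorem jordan {u : Oc a b} (hu : u.1.re = 0) (z : Oc a b) :
    om c u z + om c z u = sig (nL c) (kk 1 0) u z := by
  rw [sig_apply, nL_eq, nL_eq]
  apply oc_ext <;> simp only [omc, addc, subc, smulc, kkc, hu] <;> ring

theorem oc_im {u : Oc a b} (hu : u.1.re = 0) : oc u = -u := by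
  apply oc_ext <;> simp only [occ, negc, hu, neg_zero]

theorem nL_one (u : Oc a b) : nL c (kk 1 0) u = 2 * u.1.re := by
  simp only [nL_eq, kkc]
  ring

theorem oc_kk (u v : F) : oc (kk u v : Oc a b) = kk u (-v) := by
  apply oc_ext <;> simp only [occ, kkc, neg_zero]

theorem kk_mul (u v u' v' : F) :
    om c (kk u v : Oc a b) (kk u' v') = kk (u * u' + a * v * v') (u * v' + v * u') := by
  apply oc_ext <;> simp only [omc, kkc] <;> ring

theorem smul_kk (t u v : F) : t • (kk u v : Oc a b) = kk (t * u) (t * v) := by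
  apply oc_ext <;> simp only [kkc, smulc, mul_zero]

theorem kk_mid (u v u' v' : F) (x : Oc a b) :
    om c (om c (kk u v) x) (kk u' v') = om c (kk u v) (om c x (kk u' v')) := by
  apply oc_ext <;> simp only [omc, kkc] <;> ring

theorem kk_left (u v u' v' : F) (x : Oc a b) :
    om c (kk u v) (om c (kk u' v') x) = om c (om c (kk u v) (kk u' v')) x := by
  apply oc_ext <;> simp only [omc, kkc] <;> ring

theorem kk_right (u v u' v' : F) (x : Oc a b) :
    om c (om c x (kk u v)) (kk u' v') = om c x (om c (kk u v) (kk u' v')) := by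
  apply oc_ext <;> simp only [omc, kkc] <;> ring

theorem kk_one_left (u : F) (x : Oc a b) : om c (kk u 0) x = u • x := by
  apply oc_ext <;> simp only [omc, kkc, smulc] <;> ring

theorem kk_one_right (u : F) (x : Oc a b) : om c x (kk u 0) = u • x := by
  apply oc_ext <;> simp only [omc, kkc, smulc] <;> ring

theorem mouf_a (u v : F) (x y : Oc a b) :
    om c (om c (kk u v) x) (om c y (kk u v)) = om c (om c (kk u v) (om c x y)) (kk u v) := by
  apply oc_ext <;> simp only [omc, kkc, mul_zero, zero_mul, add_zero, sub_zero] <;> ring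

theorem mouf_b (u v : F) (x y : Oc a b) :
    om c (om c (om c (kk u v) x) (kk u v)) (om c (kk u (-v)) y)
      = (u * u - a * v * v) • om c (kk u v) (om c x y) := by
  apply oc_ext <;> simp only [omc, kkc, smulc, mul_zero, zero_mul, add_zero, sub_zero] <;> ring

section mp

variable {Ω : Type} [Field Ω] {a' b' c' : Ω} (τ : F →+* Ω)

theorem mp_add (x y : Oc a b) : (mp τ (x + y) : Oc a' b') = mp τ x + mp τ y := by
  apply oc_ext <;> simp only [mpc, addc, map_add]

theorem mp_smul (t : F) (x : Oc a b) : (mp τ (t • x) : Oc a' b') = τ t • mp τ x := by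
  apply oc_ext <;> simp only [mpc, smulc, map_mul]

theorem mp_oc (x : Oc a b) : (mp τ (oc x) : Oc a' b') = oc (mp τ x) := by
  apply oc_ext <;> simp only [mpc, occ, map_neg]

theorem mp_kk (u v : F) : (mp τ (kk u v : Oc a b) : Oc a' b') = kk (τ u) (τ v) := by
  apply oc_ext <;> simp only [mpc, kkc, map_zero]

variable {c τ}

theorem mp_om (ha : τ a = a') (hb : τ b = b') (hc : τ c = c') (x y : Oc a b) :
    (mp τ (om c x y) : Oc a' b') = om c' (mp τ x) (mp τ y) := by
  apply oc_ext <;> simp only [mpc, omc, map_add, map_sub, map_mul, ha, hb, hc]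

theorem mp_nL (ha : τ a = a') (hb : τ b = b') (hc : τ c = c') (x y : Oc a b) :
    nL c' (mp τ x : Oc a' b') (mp τ y) = τ (nL c x y) := by
  simp only [nL_eq, mpc, map_add, map_sub, map_mul, ha, hb, hc, map_ofNat]

end mp

end Vale.Agent.P011Z.ModD4
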