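import Vale.Agent.P011Z.ModD4.Lie2
import Vale.Agent.P011Z.Mod.Ten

/-!
The system of tensors of a trialitarian group.
-/

open Module Matrix

namespace Vale.Agent.P011Z.ModD4

open Vale.Agent.P011.H900 Vale.Agent.P011Z.Mod

variable {F : Type} [Field F] {a b c d q : F} {r s i : F →+* F}

/-- The trilinear form. -/
def t3 (c : F) : Oc a b →ₗ[F] Oc a b →ₗ[F] Oc a b →ₗ[F] F :=
  ((omL c).compl₁₂ ocL ocL).compr₂ (nL c)

theorem t3_apply (x y z : Oc a b) : t3 c x y z = nL c (om c (oc x) (oc y)) z := rfl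

theorem t3_st (x y z : Oc a b) :
    t3 c (mp r x : Oc a b) (mp r (mp r y : Oc a b)) z = nL c (st c r x y) z := by
  simp only [t3_apply, st, ap_eq, mp_oc]

/-- The tensors of degree two. -/
noncomputable abbrev tn2 (σ : F →+* F) (Ψ : Oc a b →ₗ[F] Oc a b →ₗ[F] F) : TnF F (Fin 8) :=
  ofML (bs a b) ![σ, RingHom.id F] (ml2 Ψ)

variable (a b c r) in
/-- The tensor of degree three. -/
noncomputable abbrev tn3 : TnF F (Fin 8) :=
  ofML (bs a b) ![r, r.comp r, RingHom.id F] (ml3 (t3 c))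

theorem pres2 (σ : F →+* F) (Ψ : Oc a b →ₗ[F] Oc a b →ₗ[F] F) (L : End F (Oc a b)) :
    (∀ x : Fin 2 → Fin 8 → F,
      (tn2 σ Ψ).ev (fun k => tm (bs a b) L *ᵥ x k) = (tn2 σ Ψ).ev x) ↔
      ∀ x y, Ψ (mp σ (L x)) (L y) = Ψ (mp σ x) y :=
  (pres_ofML _ _ _ (fun k => mp (![σ, RingHom.id F] k)) (fun _ x => mp_symm _ x) L).trans
    ⟨fun h x y => h ![x, y], fun h v => h (v 0) (v 1)⟩

theorem pres3 (L : End F (Oc a b)) :
    (∀ x : Fin 3 → Fin 8 → F,
      (tn3 a b c r).ev (fun k => tm (bs a b) L *ᵥ x k) = (tn3 a b c r).ev x) ↔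
      ∀ x y z, nL c (st c r (L x) (L y)) (L z) = nL c (st c r x y) z := by
  simp only [← t3_st]
  exact (pres_ofML _ _ _ (fun k => mp (![r, r.comp r, RingHom.id F] k)) (fun _ x => mp_symm _ x)
    L).trans ⟨fun h x y z => h ![x, y, z], fun h v => h (v 0) (v 1) (v 2)⟩

theorem ann2 (σ : F →+* F) (Ψ : Oc a b →ₗ[F] Oc a b →ₗ[F] F) (L : End F (Oc a b)) :
    (∀ x : Fin 2 → Fin 8 → F,
      ∑ k : Fin 2, (tn2 σ Ψ).ev (Function.update x k (tm (bs a b) L *ᵥ x k)) = 0) ↔
      ∀ x y, Ψ (mp σ (L x)) y + Ψ (mp σ x) (L y) = 0 := by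
  refine (ann_ofML _ _ _ (fun k => mp (![σ, RingHom.id F] k)) (fun _ x => mp_symm _ x) L).trans ?_
  simp only [Fin.sum_univ_two]
  exact ⟨fun h x y => h ![x, y], fun h v => h (v 0) (v 1)⟩

theorem ann3 (L : End F (Oc a b)) :
    (∀ x : Fin 3 → Fin 8 → F,
      ∑ k : Fin 3, (tn3 a b c r).ev (Function.update x k (tm (bs a b) L *ᵥ x k)) = 0) ↔
      Der c r L L L := by
  refine (ann_ofML _ _ _ (fun k => mp (![r, r.comp r, RingHom.id F] k)) (fun _ x => mp_symm _ x)
    L).trans ?_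
  simp only [Fin.sum_univ_three, Der, ← t3_st]
  exact ⟨fun h x y z => h ![x, y, z], fun h v => h (v 0) (v 1) (v 2)⟩

variable [CharZero F]

/-- The system of tensors. -/
noncomputable def sys (H : Hy r s a b c d q) (i : F →+* F) (E : Prop) : SysF F (Fin 8) where
  T := {t | t = tn2 (a := a) (b := b) (RingHom.id F) (nL c) ∨ t = tn3 a b c r ∨
    t = tn2 (a := a) (b := b) s ((nL c).comp (twL c d q 1 (q * r q) 1)) ∨
    (E ∧ t = tn2 (a := a) (b := b) i ((nL c).comp ocL))}
  fin := (((Set.finite_singleton _).insert _).insert _).insert _ |>.subset (by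
    rintro t (h | h | h | h)
    exacts [Or.inl h, Or.inr (Or.inl h), Or.inr (Or.inr (Or.inl h)), Or.inr (Or.inr (Or.inr h.2))])
  σ := ![RingHom.id F, RingHom.id F]
  B := Matrix.of fun j k => nL c (bs a b j) (bs a b k)
  detB := fun h0 => by
    obtain ⟨v, hv, h⟩ := Matrix.exists_vecMul_eq_zero_iff.2 h0
    have h1 : nL c (vc (bs a b) v) = 0 := (bs a b).ext fun k => by
      have := congrFun h k
      simp only [vecMul, dotProduct, of_apply, Pi.zero_apply] at this
      simp only [vc, Basis.equivFun_symm_apply, map_sum, map_smul, LinearMap.sum_apply,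
        LinearMap.smul_apply, smul_eq_mul, LinearMap.zero_apply, this]
    have h2 := (frm H.a0 H.b0 H.c0).nd _ fun y => LinearMap.congr_fun h1 y
    exact hv ((bs a b).equivFun.symm.map_eq_zero_iff.1 h2)
  memB := Or.inl rfl

variable (H : Hy r s a b c d q) {E : Prop}

theorem mem_mon {L : End F (Oc a b)} : tm (bs a b) L ∈ (sys H i E).mon ↔
    (∀ x y, nL c (L x) (L y) = nL c x y) ∧
    (∀ x y z, nL c (st c r (L x) (L y)) (L z) = nL c (st c r x y) z) ∧
    (∀ x y, nL c (Jm c r s d q (L x)) (L y) = nL c (Jm c r s d q x) y) ∧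
    (E → ∀ x y, nL c (io i (L x)) (L y) = nL c (io i x) y) := by
  constructor
  · intro h
    refine ⟨(pres2 _ _ L).1 (h _ (Or.inl rfl)), (pres3 L).1 (h _ (Or.inr (Or.inl rfl))),
      (pres2 _ _ L).1 (h _ (Or.inr (Or.inr (Or.inl rfl)))), fun hE x y => ?_⟩
    have := (pres2 _ _ L).1 (h _ (Or.inr (Or.inr (Or.inr ⟨hE, rfl⟩)))) x y
    simpa only [io, ap_eq, mp_oc, LinearMap.comp_apply, ocL_apply] using this
  · rintro ⟨h1, h2, h3, h4⟩ t (rfl | rfl | rfl | ⟨hE, rfl⟩)
    · exact (pres2 _ _ L).2 h1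
    · exact (pres3 L).2 h2
    · exact (pres2 _ _ L).2 h3
    · refine (pres2 _ _ L).2 fun x y => ?_
      have := h4 hE x y
      simpa only [io, ap_eq, mp_oc, LinearMap.comp_apply, ocL_apply] using this

theorem mem_lie {L : End F (Oc a b)} (h : L ∈ L2 a b c d q r s i E) :
    tm (bs a b) L ∈ (sys H i E).lie := by
  obtain ⟨⟨⟨h1, h2⟩, h3⟩, h4⟩ := h
  rintro t (rfl | rfl | rfl | ⟨hE, rfl⟩)
  · exact (ann2 _ _ L).2 fun x y => add_eq_zero_iff_eq_neg.2 (h1 x y)
  · exact (ann3 L).2 h2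
  · refine (ann2 _ _ L).2 fun x y => add_eq_zero_iff_eq_neg.2 ?_
    have := h1 (Jm c r s d q x) y
    rw [h3] at this
    exact this
  · refine (ann2 _ _ L).2 fun x y => add_eq_zero_iff_eq_neg.2 ?_
    have := h1 (io i x) y
    rw [h4 hE] at this
    simpa only [io, ap_eq, mp_oc, LinearMap.comp_apply, ocL_apply] using this

theorem skew_of_lie {L : End F (Oc a b)} (h : tm (bs a b) L ∈ (sys H i E).lie) : Skew (nL c) L :=
  fun x y => add_eq_zero_iff_eq_neg.1 ((ann2 _ _ L).1 (h _ (Or.inl rfl)) x y)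

section ext

variable {Ω : Type} [Field Ω] {a' b' c' : Ω} (τ : F →+* Ω)

omit [CharZero F] in
theorem tm_map {L : End F (Oc a b)} {L' : End Ω (Oc a' b')} :
    (tm (bs a b) L).map τ = tm (bs a' b') L' ↔ ∀ x, L' (mp τ x) = mp τ (L x) := by
  have e : ∀ (M : Matrix (Fin 8) (Fin 8) F) (v : Fin 8 → F),
      (mp τ (vc (bs a b) (M *ᵥ v)) : Oc a' b') = vc (bs a' b') (M.map τ *ᵥ fun k => τ (v k)) := by
    intro M v
    rw [vc, mp_symm]
    congr 1
    funext k
    exact τ.map_mulVec M v k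
  constructor
  · intro h x
    obtain ⟨v, rfl⟩ := (bs a b).equivFun.symm.surjective x
    rw [← vc_mulVec, e, h, vc_mulVec, mp_symm]
  · intro h
    obtain ⟨M, hM⟩ := (tm (bs a' b')).surjective ((tm (bs a b) L).map τ)
    rw [← hM]
    congr 1
    refine (bs a' b').ext fun k => ?_
    rw [← mp_bs (a := a) (b := b) τ, h, bs_eq, ← vc_mulVec, e, ← hM, vc_mulVec, mp_symm]

theorem skew_of_lieE (ha : τ a = a') (hb : τ b = b') (hc : τ c = c') {L' : End Ω (Oc a' b')}
    (h : tm (bs a' b') L' ∈ (sys H i E).lieE τ) : Skew (nL c') L' := by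
  have key : ∀ M ∈ (sys H i E).lieE τ, Skew (nL c') ((tm (bs a' b')).symm M) := by
    intro M hM
    refine Submodule.span_induction (p := fun M _ => Skew (nL c') ((tm (bs a' b')).symm M))
      ?_ ?_ ?_ ?_ hM
    · rintro _ ⟨M, hM, rfl⟩
      obtain ⟨L, rfl⟩ := (tm (bs a b)).surjective M
      have h1 := (tm_map τ (L' := (tm (bs a' b')).symm ((tm (bs a b) L).map τ))).1
        (AlgEquiv.apply_symm_apply _ _).symm
      beta_reduce
      generalize (tm (bs a' b')).symm ((tm (bs a b) L).map τ) = L' at h1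
      have h2 : (nL c').comp L' = -(nL c').compl₂ L' := by
        refine (bs a' b').ext fun j => (bs a' b').ext fun k => ?_
        rw [LinearMap.comp_apply, LinearMap.neg_apply, LinearMap.neg_apply, LinearMap.compl₂_apply,
          ← mp_bs (a := a) (b := b) τ j, ← mp_bs (a := a) (b := b) τ k, h1, h1, mp_nL ha hb hc,
          mp_nL ha hb hc, skew_of_lie H hM, map_neg]
      intro x y
      have h3 := LinearMap.congr_fun (LinearMap.congr_fun h2 x) y
      rwa [LinearMap.comp_apply, LinearMap.neg_apply, LinearMap.neg_apply,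
        LinearMap.compl₂_apply] at h3
    · intro x y
      simp
    · intro M M' _ _ h1 h2
      rw [map_add]
      exact h1.add h2
    · intro t M _ h1
      rw [map_smul]
      exact h1.smul t
  simpa using key _ h

end ext

end Vale.Agent.P011Z.ModD4
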