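import Vale.Agent.P011Z.ModD4.Oct

/-!
The cyclic composition and the two semilinear maps.
-/

open Module

namespace Vale.Agent.P011Z.ModD4

open Vale.Agent.P011.H900

variable {F : Type} [Field F] {a b : F}

/-- The element `α e₊ + β e₋`. -/
def pm (d α β : F) : Oc a b := kk ((α + β) / 2) ((α - β) / (2 * d))

theorem me_eq (d t : F) : (me d t : Oc a b) = pm d t 1 := rfl

/-- Multiplication on both sides by elements of the quadratic subalgebra. -/
def tw (c d α β γ δ : F) (x : Oc a b) : Oc a b := om c (om c (pm d α β) x) (pm d γ δ)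

theorem oc_pm (d α β : F) : oc (pm d α β : Oc a b) = pm d β α := by
  rw [pm, pm, oc_kk, add_comm, ← neg_div, neg_sub]

theorem smul_pm (d t α β : F) : t • (pm d α β : Oc a b) = pm d (t * α) (t * β) := by
  rw [pm, pm, smul_kk]
  congr 1 <;> ring

theorem oc_tw (c d α β γ δ : F) (x : Oc a b) :
    oc (tw c d α β γ δ x) = tw c d δ γ β α (oc x) := by
  rw [tw, tw, oc_om, oc_om, oc_pm, oc_pm, pm, pm, kk_mid]

theorem tw_smul {c d α β γ δ α' β' γ' δ' : F} (t u : F) (h1 : α' = t * α) (h2 : β' = t * β)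
    (h3 : γ' = u * γ) (h4 : δ' = u * δ) (x : Oc a b) :
    tw c d α' β' γ' δ' x = (t * u) • tw c d α β γ δ x := by
  rw [h1, h2, h3, h4, tw, tw, ← smul_pm, ← smul_pm, om_smul_left, om_smul_left, om_smul_right,
    smul_smul]

theorem nL_tw_adj (c d α β γ δ : F) (x y : Oc a b) :
    nL c (tw c d α β γ δ x) y = nL c x (tw c d β α δ γ y) := by
  rw [tw, tw, nL_right, nL_left, oc_pm, oc_pm, pm, pm, kk_mid]

/-- The map `tw` as an endomorphism. -/
def twL (c d α β γ δ : F) : End F (Oc a b) :=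
  ((omL c).flip (pm d γ δ)).comp (omL c (pm d α β))

theorem twL_apply (c d α β γ δ : F) (x : Oc a b) : twL c d α β γ δ x = tw c d α β γ δ x := rfl

section map

variable {Ω : Type} [Field Ω] {a' b' c' : Ω} {τ : F →+* Ω} {c : F}

theorem mp_pm (d α β : F) : (mp τ (pm d α β : Oc a b) : Oc a' b') = pm (τ d) (τ α) (τ β) := by
  simp only [pm, mp_kk, map_div₀, map_add, map_sub, map_mul, map_ofNat]

theorem mp_tw (ha : τ a = a') (hb : τ b = b') (hc : τ c = c') (d α β γ δ : F) (x : Oc a b) :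
    (mp τ (tw c d α β γ δ x) : Oc a' b') = tw c' (τ d) (τ α) (τ β) (τ γ) (τ δ) (mp τ x) := by
  rw [tw, tw, mp_om ha hb hc, mp_om ha hb hc, mp_pm, mp_pm]

end map

theorem tw_neg (c d α β γ δ : F) (x : Oc a b) : tw c (-d) α β γ δ x = tw c d β α δ γ x := by
  have e : ∀ α β : F, (pm (-d) α β : Oc a b) = pm d β α := fun α β => by
    rw [pm, pm, add_comm, mul_neg, div_neg, ← neg_div, neg_sub]
  rw [tw, tw, e, e]

variable [CharZero F] {c d : F}

theorem pm_mul (hd : d ≠ 0) (ha : d ^ 2 = a) (α β γ δ : F) :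
    om c (pm d α β : Oc a b) (pm d γ δ) = pm d (α * γ) (β * δ) := by
  rw [pm, pm, pm, kk_mul]
  congr 1
  · rw [← ha]
    field_simp
    ring
  · field_simp
    ring

theorem pm_diag (α : F) : (pm d α α : Oc a b) = kk α 0 := by
  rw [pm, sub_self, zero_div]
  congr 1
  ring

theorem tw_diag (α γ : F) (x : Oc a b) : tw c d α α γ γ x = (α * γ) • x := by
  rw [tw, pm_diag, pm_diag, kk_one_left, kk_one_right, smul_smul, mul_comm]

theorem tw_tw (hd : d ≠ 0) (ha : d ^ 2 = a) (α β γ δ α' β' γ' δ' : F) (x : Oc a b) :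
    tw c d α β γ δ (tw c d α' β' γ' δ' x) = tw c d (α * α') (β * β') (γ' * γ) (δ' * δ) x := by
  rw [tw, tw, tw, ← pm_mul (c := c) hd ha, ← pm_mul (c := c) hd ha, pm, pm, pm, pm, ← kk_mid,
    kk_left, kk_right]

theorem nL_tw (hd : d ≠ 0) (ha : d ^ 2 = a) (α β γ δ : F) (x y : Oc a b) :
    nL c (tw c d α β γ δ x) (tw c d α β γ δ y) = α * β * (γ * δ) * nL c x y := by
  rw [nL_tw_adj, tw_tw hd ha, mul_comm β, mul_comm δ, tw_diag, map_smul, smul_eq_mul]

theorem tw_tri (hd : d ≠ 0) (ha : d ^ 2 = a) (α β γ δ : F) (x y : Oc a b) :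
    om c (tw c d (α * γ) (β * δ) γ δ x) (tw c d δ γ α β y)
      = (γ * δ) • tw c d (α * γ) (β * δ) α β (om c x y) := by
  have e : (γ + δ) / 2 * ((γ + δ) / 2) - a * ((γ - δ) / (2 * d)) * ((γ - δ) / (2 * d)) = γ * δ := by
    rw [← ha]
    field_simp
    ring
  rw [tw, tw, tw, ← pm_mul (c := c) hd ha, ← oc_pm d γ δ, pm, pm, oc_kk, ← kk_left, kk_mid,
    mouf_a, mouf_b, e, om_smul_right, om_smul_left, kk_left]

/-- The hypotheses on `r`, `s`, `d` and `q`. -/
structure Hy (r s : F →+* F) (a b c d q : F) : Prop where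
  r3 : ∀ x, r (r (r x)) = x
  rne : ∃ x, r x ≠ x
  s2 : ∀ x, s (s x) = x
  rs : ∀ x, r (s x) = s (r x)
  ra : r a = a
  rb : r b = b
  rc : r c = c
  sa : s a = a
  sb : s b = b
  sc : s c = c
  a0 : a ≠ 0
  b0 : b ≠ 0
  c0 : c ≠ 0
  dd : d ^ 2 = a
  rd : r d = d
  sd : s d = -d
  sq : s q = q
  nq : q * r q * r (r q) = 1

/-- The hypotheses on `i`. -/
structure Hi (r s i : F →+* F) (a b c d q : F) : Prop where
  i2 : ∀ x, i (i x) = x
  si : ∀ x, s (i x) = i (s x)
  ri : ∀ x, r (i (r x)) = i x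
  ia : i a = a
  ib : i b = b
  ic : i c = c
  id : i d = d
  iq : r (i q) = q

/-- The product of the cyclic composition. -/
def st (c : F) (r : F → F) (x y : Oc a b) : Oc a b := om c (ap r (oc x)) (ap r (ap r (oc y)))

/-- The first semilinear map. -/
def Jm (c : F) (r s : F → F) (d q : F) (x : Oc a b) : Oc a b :=
  om c (om c (me d q) (ap s x)) (me d (q * r q))

/-- The second semilinear map. -/
def io (i : F → F) (x : Oc a b) : Oc a b := ap i (oc x)

omit [CharZero F] in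
theorem Jm_eq (r s : F → F) (q : F) (x : Oc a b) :
    Jm c r s d q x = tw c d q 1 (q * r q) 1 (mp s x) := rfl

omit [CharZero F] in
theorem mp_mp {f g h : F → F} (e : ∀ x, f (g x) = h x) (x : Oc a b) :
    (mp f (mp g x : Oc a b) : Oc a b) = mp h x := by
  apply oc_ext <;> simp only [mpc, e]

omit [CharZero F] in
theorem mp_id {f : F → F} (e : ∀ x, f x = x) (x : Oc a b) : (mp f x : Oc a b) = x := by
  apply oc_ext <;> simp only [mpc, e]

namespace Hy

variable {r s i : F →+* F} {q : F} (h : Hy r s a b c d q)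
include h

omit [CharZero F] in
theorem d0 : d ≠ 0 := fun h0 => h.a0 (by rw [← h.dd, h0]; ring)

omit [CharZero F] in
theorem k0 : q * (q * r q) ≠ 0 := by
  have h1 : q * r q ≠ 0 := left_ne_zero_of_mul (by rw [h.nq]; exact one_ne_zero)
  exact mul_ne_zero (left_ne_zero_of_mul h1) h1

omit [CharZero F] in
theorem sk : s (q * (q * r q)) = q * (q * r q) := by
  rw [map_mul, map_mul, ← h.rs, h.sq]

omit [CharZero F] in
theorem mp3 (x : Oc a b) : (mp r (mp r (mp r x : Oc a b) : Oc a b) : Oc a b) = x := by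
  apply oc_ext <;> simp only [mpc, h.r3]

theorem JJ (x : Oc a b) : Jm c r s d q (Jm c r s d q x) = (q * (q * r q)) • x := by
  rw [Jm_eq, Jm_eq, mp_tw h.sa h.sb h.sc, h.sd, tw_neg, tw_tw h.d0 h.dd, map_one, map_mul, ← h.rs,
    h.sq, mp_mp h.s2, mp_id fun _ => rfl, mul_one, one_mul, one_mul, mul_one, tw_diag]

theorem nJ (x y : Oc a b) :
    nL c (Jm c r s d q x) (Jm c r s d q y) = q * (q * r q) * s (nL c x y) := by
  rw [Jm_eq, Jm_eq, nL_tw h.d0 h.dd, mp_nL h.sa h.sb h.sc, mul_one, mul_one]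

theorem J_st (x y : Oc a b) :
    Jm c r s d q (st c r x y) = (q * (q * r q)) • st c r (Jm c r s d q x) (Jm c r s d q y) := by
  have nq := h.nq
  have q1 : r q ≠ 0 := right_ne_zero_of_mul (right_ne_zero_of_mul h.k0)
  have e1 : (mp r (oc (mp s x : Oc a b)) : Oc a b) = mp s (mp r (oc x) : Oc a b) := by
    rw [← mp_oc, mp_mp h.rs, mp_mp fun _ => rfl]
  have e2 : (mp r (mp r (oc (mp s y : Oc a b)) : Oc a b) : Oc a b)
      = mp s (mp r (mp r (oc y) : Oc a b) : Oc a b) := by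
    rw [← mp_oc, mp_mp h.rs, mp_mp (h := fun x => s (r (r x))) fun _ => h.rs _,
      mp_mp (h := fun x => r (r x)) fun _ => rfl, mp_mp fun _ => rfl]
  have e3 := tw_tri (c := c) h.d0 h.dd 1 (r (r q)) 1 (r q) (mp s (mp r (oc x) : Oc a b) : Oc a b)
    (mp s (mp r (mp r (oc y) : Oc a b) : Oc a b) : Oc a b)
  rw [tw_smul (α := 1) (β := r (r q) * q) (γ := 1) (δ := r (r q)) (α' := r q) (r q) 1 (by ring)
    (by linear_combination -nq) (by ring) (by ring), om_smul_right, mul_one, mul_one,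
    one_mul] at e3
  have e4 := smul_right_injective _ q1 e3
  simp only [st, ap_eq, Jm_eq, oc_tw, mp_tw h.ra h.rb h.rc, mp_om h.sa h.sb h.sc, h.rd, map_one,
    map_mul, h.r3, e1, e2]
  rw [mul_comm (r q) (r (r q)), e4]
  exact tw_smul q (q * r q) (by ring) (by linear_combination -nq) (by ring)
    (by linear_combination -nq) _

omit [CharZero F] in
theorem J_io (hi : Hi r s i a b c d q) (x : Oc a b) :
    Jm c r s d q (io i x) = (q * (q * r q)) • io i (Jm c r s d q x) := by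
  have nq := h.nq
  have e1 : i q = r (r q) := by rw [← h.r3 (i q), hi.iq]
  have e2 : i (r q) = r q := by rw [← h.r3 (i (r q)), hi.ri, e1, h.r3]
  have e3 : (mp s (mp i (oc x) : Oc a b) : Oc a b) = mp i (oc (mp s x : Oc a b)) := by
    rw [← mp_oc, mp_mp hi.si, mp_mp fun _ => rfl]
  simp only [io, ap_eq, Jm_eq, oc_tw, mp_tw hi.ia hi.ib hi.ic, hi.id, map_one, map_mul, e1, e2, e3]
  exact tw_smul q (q * r q) (by ring) (by linear_combination -nq) (by ring)
    (by linear_combination -nq) _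

omit [CharZero F] in
theorem io_st (hi : Hi r s i a b c d q) (x y : Oc a b) :
    io i (st c r x y) = st c r (io i y) (io i x) := by
  have e1 : ∀ x, i (r (r x)) = r (i x) := fun x => by
    rw [← hi.ri (r (r x)), h.r3]
  have e2 : ∀ x, i (r x) = r (r (i x)) := fun x => by
    rw [← h.r3 (i (r x)), hi.ri]
  simp only [io, st, ap_eq, oc_om, mp_om hi.ia hi.ib hi.ic, ← mp_oc, oc_oc]
  congr 1
  · apply oc_ext <;> simp only [mpc, e1]
  · apply oc_ext <;> simp only [mpc, e2]

omit [CharZero F] in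
theorem st_st (x y : Oc a b) : st c r x (st c r y x) = r (re (om c x (oc x))) • y := by
  have e := congrArg (fun z : Oc a b => (mp r z : Oc a b)) (alt_left c x (mp r (mp r y : Oc a b)))
  simp only [mp_om h.ra h.rb h.rc, mp_smul, h.mp3] at e
  simp only [st, ap_eq, oc_om, mp_om h.ra h.rb h.rc, ← mp_oc, oc_oc, h.mp3]
  exact e

omit [CharZero F] in
theorem st_cyc (x y z : Oc a b) : r (nL c (st c r x y) z) = nL c (st c r z x) y := by
  rw [← mp_nL (a' := a) (b' := b) h.ra h.rb h.rc]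
  simp only [st, ap_eq, mp_om h.ra h.rb h.rc, h.mp3]
  rw [nL_right, oc_oc, nL_left, ← mp_oc, oc_oc]

end Hy

omit [CharZero F] in
theorem Hi.io_io {r s i : F →+* F} {q : F} (hi : Hi r s i a b c d q) (x : Oc a b) :
    io i (io i x) = x := by
  rw [io, io, ap_eq, ap_eq, ← mp_oc, oc_oc, mp_mp hi.i2, mp_id fun _ => rfl]

omit [CharZero F] in
theorem Hi.n_io {r s i : F →+* F} {q : F} (hi : Hi r s i a b c d q) (x y : Oc a b) :
    nL c (io i x) (io i y) = i (nL c x y) := by
  rw [io, io, ap_eq, ap_eq, mp_nL hi.ia hi.ib hi.ic, nL_oc]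

end Vale.Agent.P011Z.ModD4
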